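import Vale.Agent.Lib.PolyTime.Lists2
import Vale.Agent.Lib.PolyTime.NatArith2

/-!
P338-D, module CTL: the control of an oblivious machine as a polynomial time state machine.

For every step `t < nT p` and every cell `u < nU (p, t)` the machine performs the instructions
`ins (p, t, u)`, a list of pairs (number of repetitions, act).
-/

namespace Vale.Agent.P338.R3.H313.Ctl

open Vale.Agent.Lib.PolyTime

set_option linter.unusedSectionVars false

variable {P A : Type}

/-- The state of the control: parameters, step, next cell, pending instructions. -/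
abbrev St (P A : Type) := P × ℕ × ℕ × List (ℕ × A)

/-- The acts of an instruction. -/
def rep (x : ℕ × A) : List A := List.replicate x.1 x.2

/-- The acts of a list of instructions. -/
def reps (l : List (ℕ × A)) : List A := l.flatMap rep

/-- The act of a state. -/
def emit (s : St P A) : Option A :=
  match s.2.2.2 with
  | [] => none
  | x :: _ => if x.1 = 0 then none else some x.2

/-- Number of loop iterations for a list of instructions. -/
def wt (l : List (ℕ × A)) : ℕ := (l.map fun x => x.1 + 1).sum

section

variable (nT : P → ℕ) (nU : P × ℕ → ℕ) (ins : P × ℕ × ℕ → List (ℕ × A))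

/-- The acts of one step. -/
def actsT (p : P) (t : ℕ) : List A := (List.range (nU (p, t))).flatMap fun u => reps (ins (p, t, u))

/-- All acts. -/
def acts (p : P) : List A := (List.range (nT p)).flatMap fun t => actsT nU ins p t

/-- The number of loop iterations. -/
def iters (p : P) : ℕ := ((List.range (nT p)).map fun t =>
  ((List.range (nU (p, t))).map fun u => wt (ins (p, t, u)) + 1).sum + 1).sum

/-- The initial state. -/
def start (p : P) : St P A := (p, 0, 0, [])

/-- The next state. -/
def next (s : St P A) : St P A :=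
  match s.2.2.2 with
  | [] => if s.2.2.1 < nU (s.1, s.2.1) then
      (s.1, s.2.1, s.2.2.1 + 1, ins (s.1, s.2.1, s.2.2.1)) else (s.1, s.2.1 + 1, 0, [])
  | x :: l => if x.1 = 0 then (s.1, s.2.1, s.2.2.1, l) else (s.1, s.2.1, s.2.2.1, (x.1 - 1, x.2) :: l)

/-- Has the machine finished? -/
def halt (s : St P A) : Bool := s.2.2.2.isEmpty && decide (nT s.1 ≤ s.2.1)

/-- The trace of a run: after `n` steps without halting the state is `s'`, and the emitted acts
are `o`. -/
structure Steps (s : St P A) (n : ℕ) (o : List A) (s' : St P A) : Prop where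
  eq : (next nU ins)^[n] s = s'
  go : ∀ i < n, halt nT ((next nU ins)^[i] s) = false
  out : (List.range n).filterMap (fun i => emit ((next nU ins)^[i] s)) = o

variable {nT nU ins}

theorem Steps.refl (s : St P A) : Steps nT nU ins s 0 [] s :=
  ⟨rfl, fun i hi => absurd hi (Nat.not_lt_zero i), rfl⟩

theorem Steps.trans {s s' s'' : St P A} {n m : ℕ} {o o' : List A}
    (h : Steps nT nU ins s n o s') (h' : Steps nT nU ins s' m o' s'') :
    Steps nT nU ins s (n + m) (o ++ o') s'' := by
  have key : ∀ i, (next nU ins)^[n + i] s = (next nU ins)^[i] s' := by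
    intro i
    rw [Nat.add_comm, Function.iterate_add_apply, h.eq]
  refine ⟨?_, ?_, ?_⟩
  · rw [key, h'.eq]
  · intro i hi
    by_cases hin : i < n
    · exact h.go i hin
    · obtain ⟨j, rfl⟩ := Nat.exists_eq_add_of_le (Nat.le_of_not_lt hin)
      rw [key]
      exact h'.go j (by omega)
  · rw [List.range_add, List.filterMap_append, h.out, List.filterMap_map]
    congr 1
    rw [← h'.out]
    congr 1
    funext i
    simp only [Function.comp]
    rw [key]

theorem Steps.one {s : St P A} {o : Option A} (hh : halt nT s = false) (ho : emit s = o) :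
    Steps nT nU ins s 1 o.toList (next nU ins s) := by
  refine ⟨rfl, ?_, ?_⟩
  · intro i hi
    have : i = 0 := by omega
    subst this
    exact hh
  · subst ho
    simp only [List.range_one, List.filterMap_cons, List.filterMap_nil, Function.iterate_zero,
      id_eq]
    cases emit s <;> rfl

theorem halt_cons (p : P) (t u : ℕ) (x : ℕ × A) (l : List (ℕ × A)) :
    halt nT (p, t, u, x :: l) = false := rfl

/-- The instructions of a list are executed. -/
theorem steps_list (p : P) (t u : ℕ) (l : List (ℕ × A)) :
    Steps nT nU ins (p, t, u, l) (wt l) (reps l) (p, t, u, []) := by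
  induction l with
  | nil => exact Steps.refl _
  | cons x l ih =>
    obtain ⟨k, a⟩ := x
    have hw : wt ((k, a) :: l) = (k + 1) + wt l := by
      simp [wt]
    have hr : reps ((k, a) :: l) = List.replicate k a ++ reps l := by
      simp [reps, rep]
    rw [hw, hr]
    clear hw hr
    refine Steps.trans ?_ ih
    induction k with
    | zero =>
      have := Steps.one (nT := nT) (nU := nU) (ins := ins) (s := (p, t, u, (0, a) :: l))
        (o := none) rfl (by simp [emit])
      simpa [next] using this
    | succ k ihk =>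
      have := Steps.one (nT := nT) (nU := nU) (ins := ins) (s := (p, t, u, (k + 1, a) :: l))
        (o := some a) rfl (by simp [emit])
      have h2 : next nU ins (p, t, u, (k + 1, a) :: l) = (p, t, u, (k, a) :: l) := by
        simp [next]
      rw [h2] at this
      have h3 := this.trans ihk
      rw [show k + 1 + 1 = 1 + (k + 1) by ring, List.replicate_succ]
      exact h3

theorem halt_of_lt {p : P} {t u : ℕ} {l : List (ℕ × A)} (h : t < nT p) :
    halt nT (p, t, u, l) = false := by
  simp [halt, h]

theorem steps_cells (p : P) (t : ℕ) (ht : t < nT p) (n : ℕ) (hn : n ≤ nU (p, t)) :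
    Steps nT nU ins (p, t, 0, []) (((List.range n).map fun u => wt (ins (p, t, u)) + 1).sum)
      ((List.range n).flatMap fun u => reps (ins (p, t, u))) (p, t, n, []) := by
  induction n with
  | zero => exact Steps.refl _
  | succ n ih =>
    have h1 := ih (by omega)
    have h2 := Steps.one (nT := nT) (nU := nU) (ins := ins) (s := (p, t, n, [])) (o := none)
      (halt_of_lt ht) rfl
    have h3 : next nU ins (p, t, n, []) = (p, t, n + 1, ins (p, t, n)) := by
      simp only [next]
      rw [if_pos (by omega)]
    rw [h3] at h2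
    have h4 := (h1.trans h2).trans (steps_list (nT := nT) (nU := nU) (ins := ins) p t (n + 1)
      (ins (p, t, n)))
    rw [List.range_succ, List.map_append, List.sum_append, List.flatMap_append]
    simp only [List.map_cons, List.map_nil, List.sum_cons, List.sum_nil, List.flatMap_cons,
      List.flatMap_nil, List.append_nil, Nat.add_zero]
    simp only [Option.toList_none, List.append_nil] at h4
    rw [show ∀ x y : ℕ, x + (y + 1) = x + 1 + y by intros; ring]
    exact h4

theorem steps_steps (p : P) (n : ℕ) (hn : n ≤ nT p) :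
    Steps nT nU ins (p, 0, 0, []) (((List.range n).map fun t =>
      ((List.range (nU (p, t))).map fun u => wt (ins (p, t, u)) + 1).sum + 1).sum)
      ((List.range n).flatMap fun t => actsT nU ins p t) (p, n, 0, []) := by
  induction n with
  | zero => exact Steps.refl _
  | succ n ih =>
    have h1 := ih (by omega)
    have h2 := steps_cells (nT := nT) (nU := nU) (ins := ins) p n (by omega) (nU (p, n)) le_rfl
    have h3 := Steps.one (nT := nT) (nU := nU) (ins := ins) (s := (p, n, nU (p, n), []))
      (o := none) (halt_of_lt (by omega)) rfl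
    have h4 : next nU ins (p, n, nU (p, n), []) = (p, n + 1, 0, []) := by
      simp only [next]
      rw [if_neg (by omega)]
    rw [h4] at h3
    have h5 := (h1.trans h2).trans h3
    rw [List.range_succ, List.map_append, List.sum_append, List.flatMap_append]
    simp only [List.map_cons, List.map_nil, List.sum_cons, List.sum_nil, List.flatMap_cons,
      List.flatMap_nil, List.append_nil, Nat.add_zero]
    simp only [Option.toList_none, List.append_nil] at h5
    rw [show ∀ x y : ℕ, x + (y + 1) = x + y + 1 by intros; ring]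
    exact h5

/-- **The run of the control.** -/
theorem run (p : P) : Steps nT nU ins (start p) (iters nT nU ins p) (acts nT nU ins p)
    (p, nT p, 0, []) := steps_steps p (nT p) le_rfl

theorem halt_end (p : P) : halt nT ((p, nT p, 0, []) : St P A) = true := by
  simp [halt]

theorem length_reps (l : List (ℕ × A)) : wt l = (reps l).length + l.length := by
  induction l with
  | nil => rfl
  | cons x l ih =>
    simp only [wt, reps, List.map_cons, List.sum_cons, List.flatMap_cons, List.length_append,
      List.length_cons] at ih ⊢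
    simp only [rep, List.length_replicate]
    omega

/-- The number of loop iterations. -/
theorem iters_eq (p : P) : iters nT nU ins p = (acts nT nU ins p).length +
    (((List.range (nT p)).map fun t =>
      ((List.range (nU (p, t))).map fun u => (ins (p, t, u)).length + 1).sum + 1).sum) := by
  unfold iters acts
  rw [List.length_flatMap, ← List.sum_map_add]
  congr 1
  refine List.map_congr_left fun t _ => ?_
  unfold actsT
  rw [List.length_flatMap, ← Nat.add_assoc, ← List.sum_map_add]
  congr 2
  refine List.map_congr_left fun u _ => ?_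
  rw [length_reps, Nat.add_assoc]

/-! ### Invariant and sizes -/

variable [Enc P] [Enc A]

/-- The invariant of the reachable states. -/
structure Inv (nT : P → ℕ) (nU : P × ℕ → ℕ) (ins : P × ℕ × ℕ → List (ℕ × A)) (p : P)
    (s : St P A) : Prop where
  hp : s.1 = p
  ht : s.2.1 ≤ nT p
  hu : s.2.2.1 ≤ nU (p, s.2.1)
  hl : s.2.2.2 = [] ∨ ∃ u < nU (p, s.2.1), esize s.2.2.2 ≤ esize (ins (p, s.2.1, u))

theorem Inv.start (p : P) : Inv nT nU ins p (start p) :=
  ⟨rfl, Nat.zero_le _, Nat.zero_le _, Or.inl rfl⟩

theorem Inv.next {p : P} {s : St P A} (h : Inv nT nU ins p s) (hh : halt nT s = false) :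
    Inv nT nU ins p (next nU ins s) := by
  obtain ⟨p', t, u, l⟩ := s
  obtain ⟨h1, h2, h3, h4⟩ := h
  simp only at h1 h2 h3 h4
  subst h1
  rcases l with _ | ⟨⟨k, a⟩, l⟩
  · have ht : t < nT p' := by
      simpa [halt] using hh
    simp only [Ctl.next]
    split_ifs with hu
    · exact ⟨rfl, h2, hu, Or.inr ⟨u, hu, le_rfl⟩⟩
    · exact ⟨rfl, ht, Nat.zero_le _, Or.inl rfl⟩
  · rcases h4 with h4 | ⟨u', hu', h4⟩
    · simp at h4
    simp only [Ctl.next]
    rw [esize_list_cons, esize_pair] at h4
    split_ifs with hk
    · exact ⟨rfl, h2, h3, Or.inr ⟨u', hu', by simp only; omega⟩⟩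
    · refine ⟨rfl, h2, h3, Or.inr ⟨u', hu', ?_⟩⟩
      simp only
      rw [esize_list_cons, esize_pair]
      have : esize (k - 1) ≤ esize k := esize_nat_mono (Nat.sub_le _ _)
      omega

theorem Inv.iterate (p : P) (i : ℕ) (hi : i ≤ iters nT nU ins p) :
    Inv nT nU ins p ((Ctl.next nU ins)^[i] (Ctl.start p)) := by
  induction i with
  | zero => exact Inv.start p
  | succ i ih =>
    rw [Function.iterate_succ_apply']
    exact (ih (by omega)).next ((run (nT := nT) (nU := nU) (ins := ins) p).go i (by omega))

/-- The sizes of the reachable states are polynomially bounded. -/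
theorem exists_size_bound (hT : PT ∅ nT) (hU : PT ∅ nU) (hI : PT ∅ ins) :
    ∃ b : P → ℕ, PBd b ∧ ∀ p s, Inv nT nU ins p s → esize s ≤ b p := by
  obtain ⟨cT, hcT⟩ := hT.pbd
  obtain ⟨cU, hcU⟩ := hU.pbd
  obtain ⟨cI, hcI⟩ := hI.pbd
  have bT : PBd (fun p : P => pb cT (esize p)) := PBd.of_PB (PB.pb cT)
  have bpt : PBd (fun p : P => 2 * esize p + pb cT (esize p) + 1) :=
    (((PBd.const 2).mul PBd.esize).add bT).add (PBd.const 1)
  have bU : PBd (fun p : P => pb cU (2 * esize p + pb cT (esize p) + 1)) := by
    have := (bpt.add (PBd.const 2)).pow cU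
    exact this.mono fun p => le_rfl
  have bptu : PBd (fun p : P => 2 * esize p +
      (2 * pb cT (esize p) + pb cU (2 * esize p + pb cT (esize p) + 1) + 1) + 1) :=
    (((PBd.const 2).mul PBd.esize).add ((((PBd.const 2).mul bT).add bU).add (PBd.const 1))).add
      (PBd.const 1)
  have bI : PBd (fun p : P => pb cI (2 * esize p +
      (2 * pb cT (esize p) + pb cU (2 * esize p + pb cT (esize p) + 1) + 1) + 1)) := by
    have := (bptu.add (PBd.const 2)).pow cI
    exact this.mono fun p => le_rfl
  refine ⟨fun p => 2 * esize p + (2 * pb cT (esize p) +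
    (2 * pb cU (2 * esize p + pb cT (esize p) + 1) + pb cI (2 * esize p +
      (2 * pb cT (esize p) + pb cU (2 * esize p + pb cT (esize p) + 1) + 1) + 1) + 1) + 1) + 1,
    (((PBd.const 2).mul PBd.esize).add ((((PBd.const 2).mul bT).add
      ((((PBd.const 2).mul bU).add bI).add (PBd.const 1))).add (PBd.const 1))).add
      (PBd.const 1), ?_⟩
  rintro p ⟨p', t, u, l⟩ ⟨h1, h2, h3, h4⟩
  simp only at h1 h2 h3 h4
  subst h1
  have et : esize t ≤ pb cT (esize p') := (esize_nat_mono h2).trans (hcT p')
  have ept : esize (p', t) ≤ 2 * esize p' + pb cT (esize p') + 1 := by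
    rw [esize_pair]
    omega
  have eU : esize (nU (p', t)) ≤ pb cU (2 * esize p' + pb cT (esize p') + 1) :=
    (hcU (p', t)).trans (pb_mono cU ept)
  have eu : esize u ≤ pb cU (2 * esize p' + pb cT (esize p') + 1) :=
    (esize_nat_mono h3).trans eU
  have el : esize l ≤ pb cI (2 * esize p' +
      (2 * pb cT (esize p') + pb cU (2 * esize p' + pb cT (esize p') + 1) + 1) + 1) := by
    rcases h4 with rfl | ⟨u', hu', h4⟩
    · simp [esize_list_nil]
    · refine (h4.trans (hcI (p', t, u'))).trans (pb_mono cI ?_)
      rw [esize_pair, esize_pair]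
      have : esize u' ≤ pb cU (2 * esize p' + pb cT (esize p') + 1) :=
        (esize_nat_mono hu'.le).trans eU
      omega
  rw [esize_pair, esize_pair, esize_pair]
  beta_reduce
  omega

/-! ### Polynomial time -/

theorem pt_emit : PT ∅ (emit (P := P) (A := A)) := by
  refine (PT.listCase (l := fun s : St P A => s.2.2.2) (f := fun _ => (none : Option A))
    (g := fun _ x _ => if x.1 = 0 then none else some x.2) PT.id.snd.snd.snd (PT.const _)
    ?_).congr fun s => ?_
  · exact PT.ite (PT.eqNat PT.id.snd.fst.fst (PT.const 0)) (PT.const _)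
      (PT.some PT.id.snd.fst.snd)
  · unfold emit
    rcases s.2.2.2 with _ | ⟨x, l⟩ <;> rfl

theorem pt_next (hU : PT ∅ nU) (hI : PT ∅ ins) : PT ∅ (Ctl.next nU ins) := by
  refine (PT.listCase (l := fun s : St P A => s.2.2.2)
    (f := fun s => if s.2.2.1 < nU (s.1, s.2.1) then
      (s.1, s.2.1, s.2.2.1 + 1, ins (s.1, s.2.1, s.2.2.1)) else (s.1, s.2.1 + 1, 0, []))
    (g := fun s x l => if x.1 = 0 then (s.1, s.2.1, s.2.2.1, l) else
      (s.1, s.2.1, s.2.2.1, (x.1 - 1, x.2) :: l)) PT.id.snd.snd.snd ?_ ?_).congr fun s => ?_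
  · have h1 : PT ∅ (fun s : St P A => s.1) := PT.id.fst
    have h2 : PT ∅ (fun s : St P A => s.2.1) := PT.id.snd.fst
    have h3 : PT ∅ (fun s : St P A => s.2.2.1) := PT.id.snd.snd.fst
    exact PT.ite (PT.lt h3 (hU.comp (h1.pair h2)))
      (h1.pair (h2.pair ((PT.add h3 (PT.const 1)).pair (hI.comp (h1.pair (h2.pair h3))))))
      (h1.pair ((PT.add h2 (PT.const 1)).pair ((PT.const 0).pair (PT.const []))))
  · have h1 : PT ∅ (fun q : St P A × (ℕ × A) × List (ℕ × A) => q.1.1) := PT.id.fst.fst
    have h2 : PT ∅ (fun q : St P A × (ℕ × A) × List (ℕ × A) => q.1.2.1) := PT.id.fst.snd.fst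
    have h3 : PT ∅ (fun q : St P A × (ℕ × A) × List (ℕ × A) => q.1.2.2.1) :=
      PT.id.fst.snd.snd.fst
    have h4 : PT ∅ (fun q : St P A × (ℕ × A) × List (ℕ × A) => q.2.1.1) := PT.id.snd.fst.fst
    have h5 : PT ∅ (fun q : St P A × (ℕ × A) × List (ℕ × A) => q.2.1.2) := PT.id.snd.fst.snd
    have h6 : PT ∅ (fun q : St P A × (ℕ × A) × List (ℕ × A) => q.2.2) := PT.id.snd.snd
    exact PT.ite (PT.eqNat h4 (PT.const 0)) (h1.pair (h2.pair (h3.pair h6)))
      (h1.pair (h2.pair (h3.pair (PT.cons ((PT.sub h4 (PT.const 1)).pair h5) h6))))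
  · unfold Ctl.next
    rcases s.2.2.2 with _ | ⟨x, l⟩ <;> rfl

theorem pt_halt (hT : PT ∅ nT) : PT ∅ (halt nT (A := A)) :=
  PT.and (PT.isEmpty PT.id.snd.snd.snd) (PT.le (hT.comp PT.id.fst) PT.id.snd.fst)

theorem pt_start : PT ∅ (Ctl.start (P := P) (A := A)) :=
  PT.id.pair ((PT.const 0).pair ((PT.const 0).pair (PT.const [])))

end

end Vale.Agent.P338.R3.H313.Ctl
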