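import Vale.Agent.P338.R3.H313.EvActs

/-!
P338-D, module PT-SCHED: codes of the passes of the machine, their instructions, polynomial time.

`D` = type of the codes of the diagonals. A pass visits `len (p, m)` places; at place `u` it
performs the instructions `ev (p, m, u)`.
-/

namespace Vale.Agent.P338.R3.H313

open Vale.Agent.Lib.PolyTime

/-- Codes of passes. -/
inductive Mc (D : Type)
  /-- a sweep of a slide -/
  | sw (c : Sw)
  /-- from the right end to the left end -/
  | rew
  /-- from the left end to the right end -/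
  | adv
  /-- multiplication with the constants of the diagonal `c` -/
  | dg (c : D)
  /-- local product -/
  | prod
  /-- load -/
  | load
  /-- push a zero cell on the second stack -/
  | zb
  /-- unload -/
  | unl

/-- Plain data of a code. -/
def Mc.tup {D : Type} : Mc D → ℕ × Option Sw × Option D
  | .sw c => (0, some c, none)
  | .rew => (1, none, none)
  | .adv => (2, none, none)
  | .dg c => (3, none, some c)
  | .prod => (4, none, none)
  | .load => (5, none, none)
  | .zb => (6, none, none)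
  | .unl => (7, none, none)

section enc

variable {D : Type} [Enc D]

instance : Enc (Mc D) := ⟨fun m => enc m.tup⟩

theorem enc_Mc (m : Mc D) : enc m = enc m.tup := rfl

variable {A : Set Word} {α β : Type*} [Enc α] [Enc β]

theorem pt_mtup {m : α → Mc D} (hm : PT A m) : PT A (fun a => (m a).tup) := by
  obtain ⟨F, hF, hF'⟩ := hm
  exact ⟨F, hF, fun a => hF' a⟩

theorem pt_ofMtup {m : α → Mc D} (h : PT A (fun a => (m a).tup)) : PT A m := by
  obtain ⟨F, hF, hF'⟩ := h
  exact ⟨F, hF, fun a => hF' a⟩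

theorem pt_sw {c : α → Sw} (hc : PT A c) : PT A (fun a => (Mc.sw (c a) : Mc D)) :=
  pt_ofMtup ((PT.const 0).pair ((PT.some hc).pair (PT.const none)))

theorem pt_dg {c : α → D} (hc : PT A c) : PT A (fun a => (Mc.dg (c a) : Mc D)) :=
  pt_ofMtup ((PT.const 3).pair ((PT.const none).pair (PT.some hc)))

/-- Definition by cases on the code of a pass. -/
theorem pt_mcases {m : α → Mc D} (hm : PT A m) {f0 : α → Sw → β} {f1 f2 : α → β}
    {f3 : α → D → β} {f4 f5 f6 f7 : α → β} (h0 : PT A (fun q : α × Sw => f0 q.1 q.2))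
    (h1 : PT A f1) (h2 : PT A f2) (h3 : PT A (fun q : α × D => f3 q.1 q.2)) (h4 : PT A f4)
    (h5 : PT A f5) (h6 : PT A f6) (h7 : PT A f7) :
    PT A (fun a => match m a with
      | .sw c => f0 a c
      | .rew => f1 a
      | .adv => f2 a
      | .dg c => f3 a c
      | .prod => f4 a
      | .load => f5 a
      | .zb => f6 a
      | .unl => f7 a) := by
  have ht := pt_mtup hm
  have hn := ht.fst
  have e0 := PT.optCase ht.snd.fst h1 h0
  have e3 := PT.optCase ht.snd.snd h1 h3
  refine ((PT.eqNat hn (PT.const 0)).cond e0 ((PT.eqNat hn (PT.const 1)).cond h1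
    ((PT.eqNat hn (PT.const 2)).cond h2 ((PT.eqNat hn (PT.const 3)).cond e3
    ((PT.eqNat hn (PT.const 4)).cond h4 ((PT.eqNat hn (PT.const 5)).cond h5
    ((PT.eqNat hn (PT.const 6)).cond h6 h7))))))).congr fun a => ?_
  cases m a <;> simp [Mc.tup]

end enc

section pass

variable {P D : Type} (K : P → ℕ) (cw : P × D × ℕ → List Bool × List Bool)
  (ldv ulv : P × ℕ → Bool)

/-- Number of places of a pass; `2 ^ K p` positions, four cells at each. -/
def len (x : P × Mc D) : ℕ :=
  match x.2 with
  | .sw c => swLen c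
  | .rew => 1
  | .adv => 1
  | .dg _ => 2 ^ K x.1
  | .prod => 2 ^ K x.1
  | .load => 2 ^ K x.1
  | .zb => 1
  | .unl => 2 ^ K x.1

/-- The instructions of a pass at a place. -/
def ev (x : P × Mc D × ℕ) : List (ℕ × Act') :=
  match x.2.1 with
  | .sw c => swIns c x.2.2
  | .rew => [(4 * 2 ^ K x.1, mvA false)]
  | .adv => [(4 * 2 ^ K x.1, mvA true)]
  | .dg c => [(2, (9, (cw (x.1, c, x.2.2)).1, (cw (x.1, c, x.2.2)).2))]
  | .prod => [(1, (10, [], []))]
  | .load => bif ldv (x.1, x.2.2) then
      [(1, (11, [], [])), (1, (13, [], [])), (1, (12, [], [])), (1, (13, [], []))]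
      else [(4, (13, [], []))]
  | .zb => [(1, (15, [], []))]
  | .unl => bif ulv (x.1, x.2.2) then [(1, (14, [], [])), (3, mvA true)] else [(4, mvA true)]

/-- The passes of a sweep: the head is at the left end before and after. -/
def swM (c : Sw) : List (Mc D) := bif c.1.1 then [.sw c, .rew] else [.adv, .sw c]

end pass

section pt

variable {P D : Type} [Enc P] [Enc D] {A : Set Word} {K : P → ℕ}
  {cw : P × D × ℕ → List Bool × List Bool} {ldv ulv : P × ℕ → Bool}

theorem pt_len (hK : PT A K) (hb : PBd K) : PT A (len (D := D) K) := by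
  have hp : PT A (fun x : P × Mc D => x.1) := PT.id.fst
  have h2 : PT A (fun x : P × Mc D => 2 ^ K x.1) := by
    refine PT.pow (PT.const 2) (hK.comp hp) ?_
    obtain ⟨c, hc⟩ := hb
    exact ⟨c, fun x => (hc x.1).trans (pb_mono c (esize_fst_le x))⟩
  exact pt_mcases (f0 := fun _ c => swLen c) (f3 := fun x _ => 2 ^ K x.1) PT.id.snd
    (PT.swLen PT.id.snd) (PT.const 1) (PT.const 1) (h2.comp PT.id.fst) h2 h2 (PT.const 1) h2

theorem pt_ev (hK : PT A K) (hb : PBd K) (hc : PT A cw) (hl : PT A ldv) (hu : PT A ulv) :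
    PT A (ev K cw ldv ulv) := by
  have hp : PT A (fun x : P × Mc D × ℕ => x.1) := PT.id.fst
  have hu2 : PT A (fun x : P × Mc D × ℕ => x.2.2) := PT.id.snd.snd
  have h2 : PT A (fun x : P × Mc D × ℕ => 4 * 2 ^ K x.1) := by
    refine PT.mul (PT.const 4) (PT.pow (PT.const 2) (hK.comp hp) ?_)
    obtain ⟨c, hc⟩ := hb
    exact ⟨c, fun x => (hc x.1).trans (pb_mono c (esize_fst_le x))⟩
  have n : PT A (fun _ : P × Mc D × ℕ => ([] : List (ℕ × Act'))) := PT.const []
  have hcw : PT A (fun q : (P × Mc D × ℕ) × D => cw (q.1.1, q.2, q.1.2.2)) :=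
    hc.comp (PT.id.fst.fst.pair (PT.id.snd.pair PT.id.fst.snd.snd))
  have hpu : PT A (fun x : P × Mc D × ℕ => (x.1, x.2.2)) := hp.pair hu2
  exact pt_mcases (f0 := fun x c => swIns c x.2.2)
    (f3 := fun x c => [(2, (9, (cw (x.1, c, x.2.2)).1, (cw (x.1, c, x.2.2)).2))]) PT.id.snd.fst
    (PT.swIns PT.id.snd PT.id.fst.snd.snd)
    (PT.cons (h2.pair (PT.const _)) n) (PT.cons (h2.pair (PT.const _)) n)
    (PT.cons ((PT.const 2).pair ((PT.const 9).pair (hcw.fst.pair hcw.snd))) (PT.const []))
    (PT.const _) ((hl.comp hpu).cond (PT.const _) (PT.const _)) (PT.const _)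
    ((hu.comp hpu).cond (PT.const _) (PT.const _))

theorem pt_swM {α : Type*} [Enc α] {c : α → Sw} (hc : PT A c) :
    PT A (fun a => (swM (c a) : List (Mc D))) :=
  hc.fst.fst.cond (PT.cons (pt_sw hc) (PT.const [Mc.rew])) (PT.cons (PT.const Mc.adv)
    (PT.cons (pt_sw hc) (PT.const [])))

end pt

end Vale.Agent.P338.R3.H313
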