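import Vale.Agent.P338.R3.H501.Rad2PT
import Vale.Agent.Lib.PolyTime.Unary

/-!
P338-D: the parameters `(d, s, y)` of the core as seen by the control.  The code of the parameters
contains the unary number `2 ^ aR d + s + y`, so that everything polynomial in this number is
polynomial time.
-/

namespace Vale.Agent.P338.R3.H313

open Vale.Agent.Lib.PolyTime
open Vale.Agent.P338.R3.H501.Rad

/-- The parameters of the core: `d` digits, `s` selector bits, `2 ^ y` coefficients. -/
@[ext] structure PV where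
  d : ℕ
  s : ℕ
  y : ℕ

/-- The unary number which is part of the code. -/
def PV.r (p : PV) : ℕ := 2 ^ aR p.d + p.s + p.y

instance : Enc PV := ⟨fun p => enc (Un.mk p.r, p.d, p.s, p.y)⟩

theorem enc_PV (p : PV) : enc p = enc (Un.mk p.r, p.d, p.s, p.y) := rfl

theorem esize_PV (p : PV) : esize p = esize (Un.mk p.r, p.d, p.s, p.y) := rfl

theorem PV.pow_le_r (p : PV) : 2 ^ aR p.d ≤ p.r :=
  (Nat.le_add_right _ _).trans (Nat.le_add_right _ _)
theorem PV.s_le_r (p : PV) : p.s ≤ p.r := (Nat.le_add_left _ _).trans (Nat.le_add_right _ _)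
theorem PV.y_le_r (p : PV) : p.y ≤ p.r := Nat.le_add_left _ _
theorem PV.aR_le_r (p : PV) : aR p.d ≤ p.r := Nat.lt_two_pow_self.le.trans p.pow_le_r
theorem PV.d_le_r (p : PV) : p.d ≤ p.r := by
  refine le_trans ?_ p.aR_le_r
  unfold aR
  nlinarith [Nat.le_self_pow (n := 2) (by norm_num) p.d]

variable {A : Set Word} {α : Type*} [Enc α] {p : α → PV}

theorem pt_tup (hp : PT A p) :
    PT A (fun x => (Un.mk (p x).r, (p x).d, (p x).s, (p x).y)) := by
  obtain ⟨F, hF, hF'⟩ := hp
  exact ⟨F, hF, fun a => hF' a⟩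

theorem pt_ofTup (h : PT A (fun x => (Un.mk (p x).r, (p x).d, (p x).s, (p x).y))) : PT A p := by
  obtain ⟨F, hF, hF'⟩ := h
  exact ⟨F, hF, fun a => hF' a⟩

theorem pt_r (hp : PT A p) : PT A (fun x => (p x).r) := PT.unVal (pt_tup hp).fst
theorem pt_ur (hp : PT A p) : PT A (fun x => Un.mk (p x).r) := (pt_tup hp).fst
theorem pt_d (hp : PT A p) : PT A (fun x => (p x).d) := (pt_tup hp).snd.fst
theorem pt_s (hp : PT A p) : PT A (fun x => (p x).s) := (pt_tup hp).snd.snd.fst
theorem pt_y (hp : PT A p) : PT A (fun x => (p x).y) := (pt_tup hp).snd.snd.snd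

theorem pbd_r (hp : PT A p) : PBd (fun x => (p x).r) := PBd.unVal (pt_ur hp)
theorem pbd_pow (hp : PT A p) : PBd (fun x => 2 ^ aR (p x).d) :=
  (pbd_r hp).mono fun x => (p x).pow_le_r
theorem pbd_a (hp : PT A p) : PBd (fun x => aR (p x).d) := (pbd_r hp).mono fun x => (p x).aR_le_r
theorem pbd_d (hp : PT A p) : PBd (fun x => (p x).d) := (pbd_r hp).mono fun x => (p x).d_le_r
theorem pbd_s (hp : PT A p) : PBd (fun x => (p x).s) := (pbd_r hp).mono fun x => (p x).s_le_r
theorem pbd_y (hp : PT A p) : PBd (fun x => (p x).y) := (pbd_r hp).mono fun x => (p x).y_le_r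

theorem pt_a (hp : PT A p) : PT A (fun x => aR (p x).d) := pt_aR (pt_d hp)
theorem pt_pow (hp : PT A p) : PT A (fun x => 2 ^ aR (p x).d) :=
  PT.pow (PT.const 2) (pt_a hp) (pbd_a hp)
theorem pt_q (hp : PT A p) {j : α → ℕ} (hj : PT A j) : PT A (fun x => sR (p x).d (j x)) :=
  pt_sR (pt_d hp) (pbd_d hp) hj
theorem pt_iv (hp : PT A p) {i j : α → ℕ} (hi : PT A i) (hj : PT A j) :
    PT A (fun x => invR (p x).d (i x) (j x)) :=
  pt_invR (pt_d hp) (pbd_d hp) hi hj

/-- The size of the code of the parameters is at most linear in the unary number. -/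
theorem PV.esize_le (p : PV) : esize p ≤ 10 * (p.r + 1) := by
  have h1 : esize p.d ≤ p.r := (esize_nat_le_self _).trans p.d_le_r
  have h2 : esize p.s ≤ p.r := (esize_nat_le_self _).trans p.s_le_r
  have h3 : esize p.y ≤ p.r := (esize_nat_le_self _).trans p.y_le_r
  rw [esize_PV, esize_pair, esize_pair, esize_pair, esize_un]
  simp only
  omega

end Vale.Agent.P338.R3.H313
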