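import Vale.Agent.P338.R3.H651.ZDef
import Vale.Agent.P338.R3.H527.Best
import Vale.Agent.P338.R3.H527.Word3
import Vale.Agent.P338.R3.H121.Lam
import Vale.Agent.P338.R3.H352.Mat
import Vale.Agent.P338.R3.H313.Micro
import Vale.Agent.P338.R3.H313.Par

/-!
P338-D, module PT-SCHED: the list of all passes of the multiplication core.
-/

namespace Vale.Agent.P338.R3.H313

open Vale.Agent.P338.R3.H282 (Geo St DC)
open Vale.Agent.P338.R3.H352 (Dc lprog)
open Vale.Agent.P338.R3.H501.Rad
open Vale.Agent.P338.R3.H527 (Slide best lvl)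
open Vale.Agent.P338.R3.H651 (sws)

/-- The sweeps of one zeta step on the bits `J` of the `K` position bits (two more bits below);
`tr = false`: the cells with bit `1` get the cells with bit `0` (`up`), `tr = true`: `dn`. -/
def zs (P : ℕ × List Slide) (K : ℕ) (tr : Bool) (J : List ℕ) : List Sw :=
  sws tr P (lvl (J.map (· + 2)) (K + 2))

/-- The passes of a step. -/
def stM {δ : Type} (P : ℕ × List Slide) (K : ℕ) : St δ → List (Mc (DC δ))
  | .dn J => (zs P K true J).flatMap swM
  | .up J => (zs P K false J).flatMap swM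
  | .dg c => [.dg c, .rew]

/-- Number of bits of a position. -/
def KP (p : PV) : ℕ := aR p.d * p.d + p.s

/-- The geometry. -/
def GP (p : PV) : Geo := H121.geo p.d p.s

/-- The program for zeta steps. -/
def PP (p : PV) : ℕ × List Slide := best (p.d + p.s)

/-- The schedule before the product. -/
def fwP (p : PV) : List (St Dc) := (GP p).fwd (lprog (aR p.d))

/-- The schedule after the product. -/
def bkP (p : PV) : List (St Dc) := (GP p).bwd (lprog (aR p.d))

/-- **The list of all passes.** -/
def micro (p : PV) : List (Mc (DC Dc)) :=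
  [.load, .rew] ++ ((fwP p).flatMap (stM (PP p) (KP p)) ++
    ([.prod, .rew] ++ ((bkP p).flatMap (stM (PP p) (KP p)) ++ [.zb, .unl])))

/-- Positions where blocks are loaded: all digits below their radices, highest selector bit `0`. -/
def ldv (x : PV × ℕ) : Bool :=
  (GP x.1).valid x.2 && !x.2.testBit ((GP x.1).a * (GP x.1).d + ((GP x.1).s - 1))

/-- Positions where blocks are released. -/
def ulv (x : PV × ℕ) : Bool := (GP x.1).valid x.2

/-- Number of passes. -/
def nTp (p : PV) : ℕ := Ctl.nTs micro p

/-- Number of places of a pass. -/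
def nUp (x : PV × ℕ) : ℕ := Ctl.nUs micro (len KP) .rew x

/-- The instructions; `cw` = words of the constants. -/
def insP (cw : PV × DC Dc × ℕ → List Bool × List Bool) (x : PV × ℕ × ℕ) : List (ℕ × Act') :=
  Ctl.insS micro (ev KP cw ldv ulv) .rew x

/-- All acts. -/
theorem acts_P (cw : PV × DC Dc × ℕ → List Bool × List Bool) (p : PV) :
    Ctl.acts nTp nUp (insP cw) p =
      (micro p).flatMap (Ctl.stepActs (len KP) (ev KP cw ldv ulv) p) :=
  Ctl.acts_sched micro (len KP) (ev KP cw ldv ulv) .rew p

/-- Number of loop iterations. -/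
theorem iters_P (cw : PV × DC Dc × ℕ → List Bool × List Bool) (p : PV) :
    Ctl.iters nTp nUp (insP cw) p =
      ((micro p).map (Ctl.stepIters (len KP) (ev KP cw ldv ulv) p)).sum :=
  Ctl.iters_sched micro (len KP) (ev KP cw ldv ulv) .rew p

end Vale.Agent.P338.R3.H313
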