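import Vale.Agent.P338.R3.H313.Ctl

/-!
P338-D, module CTL: the control given by a list of steps. `sched p : List C` is the list of steps,
a step `c` visits `len (p, c)` cells, and at cell `u` performs the instructions `ev (p, c, u)`.
-/

namespace Vale.Agent.P338.R3.H313.Ctl

open Vale.Agent.Lib.PolyTime

set_option linter.unusedSectionVars false

variable {P A C : Type}

section

variable (sched : P → List C) (len : P × C → ℕ) (ev : P × C × ℕ → List (ℕ × A)) (c₀ : C)

/-- Number of steps. -/
def nTs (p : P) : ℕ := (sched p).length

/-- Number of cells of a step. -/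
def nUs (q : P × ℕ) : ℕ := len (q.1, (sched q.1).getD q.2 c₀)

/-- The instructions of step `t` at cell `u`. -/
def insS (q : P × ℕ × ℕ) : List (ℕ × A) := ev (q.1, (sched q.1).getD q.2.1 c₀, q.2.2)

/-- The acts of a step. -/
def stepActs (p : P) (c : C) : List A := (List.range (len (p, c))).flatMap fun u => reps (ev (p, c, u))

/-- The number of loop iterations of a step. -/
def stepIters (p : P) (c : C) : ℕ :=
  ((List.range (len (p, c))).map fun u => wt (ev (p, c, u)) + 1).sum + 1

theorem flatMap_range_getD {β : Type} (l : List C) (c₀ : C) (f : C → List β) :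
    ((List.range l.length).flatMap fun t => f (l.getD t c₀)) = l.flatMap f := by
  have : l = (List.range l.length).map fun t => l.getD t c₀ := by
    apply List.ext_getElem
    · simp
    · intro i h1 h2
      simp [List.getD_eq_getElem?_getD, List.getElem?_eq_getElem h1]
  conv_rhs => rw [this]
  rw [List.flatMap_map]

theorem sum_range_getD (l : List C) (c₀ : C) (f : C → ℕ) :
    ((List.range l.length).map fun t => f (l.getD t c₀)).sum = (l.map f).sum := by
  have : l = (List.range l.length).map fun t => l.getD t c₀ := by
    apply List.ext_getElem
    · simp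
    · intro i h1 h2
      simp [List.getD_eq_getElem?_getD, List.getElem?_eq_getElem h1]
  conv_rhs => rw [this]
  rw [List.map_map]
  rfl

/-- The acts of the machine are the acts of the steps, one after the other. -/
theorem acts_sched (p : P) :
    acts (nTs sched) (nUs sched len c₀) (insS sched ev c₀) p =
      (sched p).flatMap (stepActs len ev p) :=
  flatMap_range_getD (sched p) c₀ (stepActs len ev p)

/-- The number of loop iterations. -/
theorem iters_sched (p : P) :
    iters (nTs sched) (nUs sched len c₀) (insS sched ev c₀) p =
      ((sched p).map (stepIters len ev p)).sum :=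
  sum_range_getD (sched p) c₀ (stepIters len ev p)

/-- The number of loop iterations of a step, in terms of the number of acts. -/
theorem stepIters_eq (p : P) (c : C) : stepIters len ev p c = (stepActs len ev p c).length +
    ((List.range (len (p, c))).map fun u => (ev (p, c, u)).length + 1).sum + 1 := by
  unfold stepIters stepActs
  rw [List.length_flatMap, ← List.sum_map_add]
  congr 2
  refine List.map_congr_left fun u _ => ?_
  rw [length_reps, Nat.add_assoc]

end

section

variable [Enc P] [Enc A] [Enc C]
variable {sched : P → List C} {len : P × C → ℕ} {ev : P × C × ℕ → List (ℕ × A)} {c₀ : C}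

theorem pt_nTs (h : PT ∅ sched) : PT ∅ (nTs sched) := PT.length h

theorem pt_nUs (h : PT ∅ sched) (hl : PT ∅ len) : PT ∅ (nUs sched len c₀) :=
  hl.comp (PT.id.fst.pair (PT.getD (h.comp PT.id.fst) PT.id.snd (PT.const c₀)))

theorem pt_insS (h : PT ∅ sched) (he : PT ∅ ev) : PT ∅ (insS sched ev c₀) :=
  he.comp (PT.id.fst.pair ((PT.getD (h.comp PT.id.fst) PT.id.snd.fst (PT.const c₀)).pair
    PT.id.snd.snd))

end

end Vale.Agent.P338.R3.H313.Ctl
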