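import Vale.Agent.P338.R3.H313.EvPT2
import Vale.Agent.P338.R3.H313.StepList

/-!
P338-D, module PT-SCHED: the instructions of a sweep at a cell, as a polynomial time function of the
number of the cell.
-/

namespace Vale.Agent.P338.R3.H313

open Vale.Agent.Lib.PolyTime
open Vale.Agent.P338.R2.H110

variable {A : Set Word} {α : Type*} [Enc α]

/-- The `K` lowest bits of `u`, most significant first. -/
def bw (K u : ℕ) : List Bool := (List.range K).reverse.map u.testBit

@[simp] theorem length_bw (K u : ℕ) : (bw K u).length = K := by simp [bw]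

theorem bw_succ (K u : ℕ) : bw (K + 1) u = u.testBit K :: bw K u := by
  simp [bw, List.range_succ]

theorem bw_congr {K u v : ℕ} (h : ∀ i < K, u.testBit i = v.testBit i) : bw K u = bw K v := by
  refine List.map_congr_left fun i hi => ?_
  rw [List.mem_reverse, List.mem_range] at hi
  exact h i hi

theorem words_eq (n : ℕ) : words n = (List.range (2 ^ n)).map (bw n) := by
  induction n with
  | zero => rfl
  | succ n ih =>
    have e : 2 ^ (n + 1) = 2 ^ n + 2 ^ n := by ring
    rw [words, ih, e, List.range_add, List.map_append, List.map_map, List.map_map, List.map_map]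
    congr 1
    · refine List.map_congr_left fun u hu => ?_
      rw [List.mem_range] at hu
      simp only [Function.comp]
      rw [bw_succ, Nat.testBit_lt_two_pow hu]
    · refine List.map_congr_left fun u hu => ?_
      rw [List.mem_range] at hu
      simp only [Function.comp]
      rw [bw_succ, Nat.testBit_two_pow_add_eq, Nat.testBit_lt_two_pow hu]
      simp only [Bool.not_false, List.cons.injEq, true_and]
      refine bw_congr fun i hi => ?_
      rw [Nat.testBit_two_pow_add_gt hi]

theorem PT.bw {K u : α → ℕ} (hK : PT A K) (hb : PBd K) (hu : PT A u) :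
    PT A (fun a => bw (K a) (u a)) := by
  unfold H313.bw
  exact PT.map (f := fun a => (u a).testBit) (PT.reverse (PT.range hK hb))
    (PT.testBit (hu.comp PT.id.fst) PT.id.snd)

/-- Acts of the cell machine: code and two payload words. -/
abbrev Act' := ℕ × List Bool × List Bool

/-- Move in direction `d`. -/
def mvA (d : Bool) : Act' := (bif d then 0 else 1, [], [])
/-- Push a copy of the cell on `A` and go in direction `d`. -/
def cpA (d : Bool) : Act' := (bif d then 2 else 3, [], [])
/-- From `A` to `B`. -/
def trA : Act' := (4, [], [])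
/-- Add (`s = true`) or subtract the top of `B` and go in direction `d`. -/
def adA (d s : Bool) : Act' := (bif d then (bif s then 5 else 6) else (bif s then 7 else 8), [], [])

/-- The instructions of an event. -/
def actsEv (d s : Bool) (e : ℕ × ℕ) : List (ℕ × Act') :=
  bif decide (e.1 = 0) then [(1, mvA d)] else
    bif decide (e.1 = 1) then [(e.2, cpA d), (e.2, mvA (!d))] else
      bif decide (e.1 = 2) then [(e.2, trA)] else [(e.2, adA d s), (e.2, mvA (!d))]

theorem actsEv_adv (d s : Bool) : actsEv d s (cev .adv) = [(1, mvA d)] := rfl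
theorem actsEv_push (d s : Bool) (k : ℕ) :
    actsEv d s (cev (.push k)) = [(k, cpA d), (k, mvA (!d))] := rfl
theorem actsEv_flip (d s : Bool) (k : ℕ) : actsEv d s (cev (.flip k)) = [(k, trA)] := rfl
theorem actsEv_pop (d s : Bool) (k : ℕ) :
    actsEv d s (cev (.pop k)) = [(k, adA d s), (k, mvA (!d))] := rfl

/-- A sweep: direction, sign, source word, target word, levels. -/
abbrev Sw := (Bool × Bool) × List Bool × List Bool × List Bool

/-- The instructions of a sweep at the cell number `u`. -/
def swIns (c : Sw) (u : ℕ) : List (ℕ × Act') :=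
  (evL c.2.1 c.2.2.1 c.2.2.2 (bw c.2.2.2.length u) ++ [(0, 0)]).flatMap (actsEv c.1.1 c.1.2)

/-- The number of cells of a sweep. -/
def swLen (c : Sw) : ℕ := 2 ^ c.2.2.2.length

/-- The instructions of a list of events. -/
def insEvs (d s : Bool) (l : List Ev) : List (ℕ × Act') := l.flatMap fun e => actsEv d s (cev e)

/-- **The instructions of a sweep are those of helper110's event list.** -/
theorem sweep_ins (d s : Bool) (a b ls : List Bool) :
    ((List.range (swLen ((d, s), a, b, ls))).flatMap (swIns ((d, s), a, b, ls))) =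
      insEvs d s (go a b ls (.pre a b)) := by
  rw [go_eq_flatMap, words_eq, List.flatMap_map]
  unfold insEvs swLen
  rw [List.flatMap_assoc]
  refine congrArg₂ List.flatMap ?_ rfl
  funext u
  unfold swIns
  simp only
  rw [evL_eq _ _ _ _ (by simp), List.flatMap_append, List.flatMap_append, List.flatMap_map]
  rfl

/-- The acts of a sweep. -/
theorem sweep_acts (d s : Bool) (a b ls : List Bool) :
    ((List.range (swLen ((d, s), a, b, ls))).flatMap fun u =>
      Ctl.reps (swIns ((d, s), a, b, ls) u)) =
      Ctl.reps (insEvs d s (go a b ls (.pre a b))) := by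
  rw [← sweep_ins]
  unfold Ctl.reps
  rw [List.flatMap_assoc]

theorem PT.mvA {d : α → Bool} (hd : PT A d) : PT A (fun a => mvA (d a)) :=
  (hd.cond (PT.const 0) (PT.const 1)).pair ((PT.const []).pair (PT.const []))

theorem PT.cpA {d : α → Bool} (hd : PT A d) : PT A (fun a => cpA (d a)) :=
  (hd.cond (PT.const 2) (PT.const 3)).pair ((PT.const []).pair (PT.const []))

theorem PT.adA {d s : α → Bool} (hd : PT A d) (hs : PT A s) : PT A (fun a => adA (d a) (s a)) :=
  (hd.cond (hs.cond (PT.const 5) (PT.const 6)) (hs.cond (PT.const 7) (PT.const 8))).pair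
    ((PT.const []).pair (PT.const []))

theorem PT.actsEv {d s : α → Bool} {e : α → ℕ × ℕ} (hd : PT A d) (hs : PT A s) (he : PT A e) :
    PT A (fun a => actsEv (d a) (s a) (e a)) := by
  have h1 : PT A (fun a => (e a).1) := he.fst
  have h2 : PT A (fun a => (e a).2) := he.snd
  have n : PT A (fun _ : α => ([] : List (ℕ × Act'))) := PT.const []
  exact (PT.eqNat h1 (PT.const 0)).cond (PT.cons ((PT.const 1).pair (PT.mvA hd)) n)
    ((PT.eqNat h1 (PT.const 1)).cond
      (PT.cons (h2.pair (PT.cpA hd)) (PT.cons (h2.pair (PT.mvA hd.not)) n))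
      ((PT.eqNat h1 (PT.const 2)).cond (PT.cons (h2.pair (PT.const trA)) n)
        (PT.cons (h2.pair (PT.adA hd hs)) (PT.cons (h2.pair (PT.mvA hd.not)) n))))

theorem PT.swLen {c : α → Sw} (hc : PT A c) : PT A (fun a => swLen (c a)) :=
  PT.pow (PT.const 2) (PT.length hc.snd.snd.snd) (PBd.length hc.snd.snd.snd)

/-- **The instructions of a sweep are computed in polynomial time.** -/
theorem PT.swIns {c : α → Sw} {u : α → ℕ} (hc : PT A c) (hu : PT A u) :
    PT A (fun a => swIns (c a) (u a)) := by
  have hl : PT A (fun a => (c a).2.2.2) := hc.snd.snd.snd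
  have hw : PT A (fun a => H313.bw (c a).2.2.2.length (u a)) :=
    PT.bw (PT.length hl) (PBd.length hl) hu
  unfold H313.swIns
  exact PT.flatMap (f := fun a => H313.actsEv (c a).1.1 (c a).1.2)
    (PT.append (PT.evL hc.snd.fst hc.snd.snd.fst hl hw) (PT.const [(0, 0)]))
    (PT.actsEv (hc.fst.fst.comp PT.id.fst) (hc.fst.snd.comp PT.id.fst) PT.id.snd)

end Vale.Agent.P338.R3.H313
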