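import Vale.Agent.P338.R2.H110.At
import Vale.Agent.Lib.PolyTime.Bitwise
import Vale.Agent.Lib.PolyTime.NatArith2

/-!
P338-D, module PT-SCHED: the events of a sweep (helper110's `evAt`) as a polynomial time function.
-/

namespace Vale.Agent.P338.R3.H313

open Vale.Agent.Lib.PolyTime
open Vale.Agent.P338.R2.H110

/-- Plain data of a state of a sweep. -/
abbrev Q := ℕ × List Bool × List Bool

/-- The state described by plain data. -/
def decSt (q : Q) : R2.H110.St :=
  if q.1 = 0 then .pre q.2.1 q.2.2 else if q.1 = 1 then .src q.2.1 else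
    if q.1 = 2 then .tgt q.2.1 else .dead q.2.1.length

/-- Are two bits equal? -/
def eqB (x y : Bool) : Bool := !(Bool.xor x y)

theorem eqB_iff (x y : Bool) : eqB x y = true ↔ x = y := by
  cases x <;> cases y <;> simp [eqB]

/-- Next state. -/
def nxL (q : Q) (v : Bool) : Q :=
  bif decide (q.1 = 0) then
    bif q.2.1.isEmpty || q.2.2.isEmpty then q else
      bif eqB (q.2.1.headD false) (q.2.2.headD false) then
        bif eqB v (q.2.1.headD false) then (0, q.2.1.tail, q.2.2.tail) else (3, q.2.1.tail, [])
      else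
        bif eqB v (q.2.1.headD false) then (1, q.2.1.tail, []) else (2, q.2.2.tail, [])
  else bif decide (q.1 = 1) then
    bif q.2.1.isEmpty then q else
      bif eqB v (q.2.1.headD false) then (1, q.2.1.tail, []) else (3, q.2.1.tail, [])
  else bif decide (q.1 = 2) then
    bif q.2.1.isEmpty then q else
      bif eqB v (q.2.1.headD false) then (2, q.2.1.tail, []) else (3, q.2.1.tail, [])
  else (3, q.2.1.tail, [])

theorem decSt_nxL (q : Q) (v : Bool) : decSt (nxL q v) = nx (decSt q) v := by
  obtain ⟨k, a, b⟩ := q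
  unfold nxL decSt
  by_cases h0 : k = 0
  · subst h0
    rcases a with _ | ⟨x, a⟩
    · simp [nx]
    · rcases b with _ | ⟨y, b⟩
      · simp [nx]
      · cases x <;> cases y <;> cases v <;> simp [nx, eqB]
  · by_cases h1 : k = 1
    · subst h1
      rcases a with _ | ⟨x, a⟩
      · simp [nx]
      · cases x <;> cases v <;> simp [nx, eqB]
    · by_cases h2 : k = 2
      · subst h2
        rcases a with _ | ⟨x, a⟩
        · simp [nx]
        · cases x <;> cases v <;> simp [nx, eqB]
      · simp [h0, h1, h2, nx]

/-- Completion of a chunk. -/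
def finL (a₀ b₀ : List Bool) (q : Q) : Q :=
  bif decide (q.1 = 0) then q else bif q.2.1.isEmpty then (0, a₀, b₀) else q

theorem decSt_finL (a₀ b₀ : List Bool) (q : Q) :
    decSt (finL a₀ b₀ q) = fin a₀ b₀ (decSt q) := by
  obtain ⟨k, a, b⟩ := q
  unfold finL decSt
  by_cases h0 : k = 0
  · subst h0
    simp [fin]
  · rcases a with _ | ⟨x, a⟩
    · by_cases h1 : k = 1
      · simp [fin, h1]
      · by_cases h2 : k = 2
        · simp [fin, h2]
        · simp [fin, h0, h1, h2]
    · by_cases h1 : k = 1
      · simp [fin, h1]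
      · by_cases h2 : k = 2
        · simp [fin, h2]
        · simp [fin, h0, h1, h2]

/-- Plain data of an event: 0 next cell, 1 push, 2 flip, 3 pop. -/
def cev : Ev → ℕ × ℕ
  | .adv => (0, 0)
  | .push k => (1, k)
  | .flip k => (2, k)
  | .pop k => (3, k)

/-- Block operation at the completion of a chunk. -/
def markL (sz : ℕ) (q : Q) : List (ℕ × ℕ) :=
  bif q.2.1.isEmpty then
    bif decide (q.1 = 1) then [(1, sz)] else bif decide (q.1 = 2) then [(3, sz)] else []
  else []

theorem markL_eq (sz : ℕ) (q : Q) : markL sz q = (mark sz (decSt q)).map cev := by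
  obtain ⟨k, a, b⟩ := q
  unfold markL decSt
  by_cases h0 : k = 0
  · subst h0
    rcases a with _ | ⟨x, a⟩ <;> simp [mark]
  · by_cases h1 : k = 1
    · subst h1
      rcases a with _ | ⟨x, a⟩ <;> simp [mark, cev]
    · by_cases h2 : k = 2
      · subst h2
        rcases a with _ | ⟨x, a⟩ <;> simp [mark, cev]
      · rcases a with _ | ⟨x, a⟩ <;> simp [h0, h1, h2, mark]

/-- Transfer between the two halves. -/
def flL (n : ℕ) (q : Q) : List (ℕ × ℕ) :=
  bif decide (q.1 = 0) && (!q.2.1.isEmpty && (!q.2.2.isEmpty &&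
      !(eqB (q.2.1.headD false) (q.2.2.headD false)))) then
    [(2, 2 ^ (n - q.2.1.tail.length))] else []

theorem flL_eq (n : ℕ) (q : Q) : flL n q = (fl n (decSt q)).map cev := by
  obtain ⟨k, a, b⟩ := q
  unfold flL decSt
  by_cases h0 : k = 0
  · subst h0
    rcases a with _ | ⟨x, a⟩
    · simp [fl]
    · rcases b with _ | ⟨y, b⟩
      · simp [fl]
      · cases x <;> cases y <;> simp [fl, eqB, cev]
  · by_cases h1 : k = 1
    · subst h1
      simp [fl]
    · by_cases h2 : k = 2
      · subst h2
        simp [fl]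
      · simp [h0, h1, h2, fl]

/-- The state of the loop over the levels: levels to come, state, bits to come, events. -/
abbrev SL := List Bool × Q × List Bool × List (ℕ × ℕ)

/-- One level. -/
def stepE (a₀ b₀ : List Bool) (s : SL) (l : Bool) : SL :=
  bif l then
    (s.1.tail, finL a₀ b₀ (nxL s.2.1 (s.2.2.1.headD false)), s.2.2.1.tail,
      s.2.2.2 ++ (bif s.2.2.1.tail.all (fun x => !x) then
        (bif s.2.2.1.headD false then flL s.1.tail.length s.2.1 else []) ++
          markL (2 ^ s.1.tail.length) (nxL s.2.1 (s.2.2.1.headD false)) else []))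
  else (s.1.tail, s.2.1, s.2.2.1.tail, s.2.2.2)

/-- The events before the cell with the index word `w`, as plain data. -/
def evL (a₀ b₀ ls w : List Bool) : List (ℕ × ℕ) :=
  (ls.foldl (stepE a₀ b₀) (ls, (0, a₀, b₀), w, [])).2.2.2

theorem foldl_stepE (a₀ b₀ : List Bool) : ∀ (ls w : List Bool) (q : Q) (o : List (ℕ × ℕ)),
    w.length = ls.length →
    (ls.foldl (stepE a₀ b₀) (ls, q, w, o)).2.2.2 = o ++ (evAt a₀ b₀ ls (decSt q) w).map cev
  | [], w, q, o, h => by simp [evAt]
  | l :: ls, w, q, o, h => by
    rcases w with _ | ⟨v, w⟩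
    · simp at h
    have hw : w.length = ls.length := by simpa using h
    cases l with
    | false =>
      rw [List.foldl_cons]
      have : stepE a₀ b₀ (false :: ls, q, v :: w, o) false = (ls, q, w, o) := by
        simp [stepE]
      rw [this, foldl_stepE a₀ b₀ ls w q o hw]
      simp [evAt]
    | true =>
      rw [List.foldl_cons]
      have : stepE a₀ b₀ (true :: ls, q, v :: w, o) true =
          (ls, finL a₀ b₀ (nxL q v), w, o ++ (bif w.all (fun x => !x) then
            (bif v then flL ls.length q else []) ++ markL (2 ^ ls.length) (nxL q v) else [])) := by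
        simp [stepE]
      rw [this, foldl_stepE a₀ b₀ ls w _ _ hw, decSt_finL, decSt_nxL, markL_eq, flL_eq,
        decSt_nxL]
      simp only [evAt, List.map_append]
      rw [List.append_assoc]
      congr 2
      cases hall : w.all (fun x => !x)
      · simp
      · cases v <;> simp

theorem evL_eq (a₀ b₀ ls w : List Bool) (h : w.length = ls.length) :
    evL a₀ b₀ ls w = (evAt a₀ b₀ ls (.pre a₀ b₀) w).map cev := by
  unfold evL
  rw [foldl_stepE a₀ b₀ ls w _ _ h]
  simp [decSt]

end Vale.Agent.P338.R3.H313
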