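import Vale.Agent.P338.R3.H313.EvPT

/-!
P338-D, module PT-SCHED: the events of a sweep are computed in polynomial time.
-/

namespace Vale.Agent.P338.R3.H313

open Vale.Agent.Lib.PolyTime

variable {A : Set Word} {α : Type*} [Enc α]

theorem PT.eqB {f g : α → Bool} (hf : PT A f) (hg : PT A g) : PT A (fun a => eqB (f a) (g a)) :=
  PT.not (PT.xor hf hg)

theorem PT.nxL {q : α → Q} {v : α → Bool} (hq : PT A q) (hv : PT A v) :
    PT A (fun a => nxL (q a) (v a)) := by
  have h1 : PT A (fun a => (q a).1) := hq.fst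
  have h2 : PT A (fun a => (q a).2.1) := hq.snd.fst
  have h3 : PT A (fun a => (q a).2.2) := hq.snd.snd
  have t2 : PT A (fun a => (q a).2.1.tail) := PT.tail h2
  have t3 : PT A (fun a => (q a).2.2.tail) := PT.tail h3
  have d2 : PT A (fun a => (q a).2.1.headD false) := PT.headD h2 (PT.const false)
  have d3 : PT A (fun a => (q a).2.2.headD false) := PT.headD h3 (PT.const false)
  have k : ∀ n : ℕ, PT A (fun _ : α => n) := fun n => PT.const n
  have kn : PT A (fun _ : α => ([] : List Bool)) := PT.const []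
  have ev : PT A (fun a => H313.eqB (v a) ((q a).2.1.headD false)) := PT.eqB hv d2
  unfold H313.nxL
  refine (PT.eqNat h1 (k 0)).cond ?_ ((PT.eqNat h1 (k 1)).cond ?_ ((PT.eqNat h1 (k 2)).cond ?_ ?_))
  · exact ((PT.isEmpty h2).or (PT.isEmpty h3)).cond hq ((PT.eqB d2 d3).cond
      (ev.cond ((k 0).pair (t2.pair t3)) ((k 3).pair (t2.pair kn)))
      (ev.cond ((k 1).pair (t2.pair kn)) ((k 2).pair (t3.pair kn))))
  · exact (PT.isEmpty h2).cond hq (ev.cond ((k 1).pair (t2.pair kn)) ((k 3).pair (t2.pair kn)))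
  · exact (PT.isEmpty h2).cond hq (ev.cond ((k 2).pair (t2.pair kn)) ((k 3).pair (t2.pair kn)))
  · exact (k 3).pair (t2.pair kn)

theorem PT.finL {a₀ b₀ : α → List Bool} {q : α → Q} (ha : PT A a₀) (hb : PT A b₀) (hq : PT A q) :
    PT A (fun a => finL (a₀ a) (b₀ a) (q a)) :=
  (PT.eqNat hq.fst (PT.const 0)).cond hq ((PT.isEmpty hq.snd.fst).cond
    ((PT.const 0).pair (ha.pair hb)) hq)

theorem PT.markL {sz : α → ℕ} {q : α → Q} (hs : PT A sz) (hq : PT A q) :
    PT A (fun a => markL (sz a) (q a)) :=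
  (PT.isEmpty hq.snd.fst).cond ((PT.eqNat hq.fst (PT.const 1)).cond
    (PT.cons ((PT.const 1).pair hs) (PT.const [])) ((PT.eqNat hq.fst (PT.const 2)).cond
    (PT.cons ((PT.const 3).pair hs) (PT.const [])) (PT.const []))) (PT.const [])

theorem PT.flL {n : α → ℕ} {q : α → Q} (hn : PT A n) (hnb : PBd n) (hq : PT A q) :
    PT A (fun a => flL (n a) (q a)) := by
  have h2 : PT A (fun a => (q a).2.1) := hq.snd.fst
  have h3 : PT A (fun a => (q a).2.2) := hq.snd.snd
  have d2 : PT A (fun a => (q a).2.1.headD false) := PT.headD h2 (PT.const false)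
  have d3 : PT A (fun a => (q a).2.2.headD false) := PT.headD h3 (PT.const false)
  have he : PT A (fun a => n a - (q a).2.1.tail.length) := PT.sub hn (PT.length (PT.tail h2))
  exact ((PT.eqNat hq.fst (PT.const 0)).and ((PT.isEmpty h2).not.and ((PT.isEmpty h3).not.and
    (PT.eqB d2 d3).not))).cond (PT.cons ((PT.const 2).pair
      (PT.pow (PT.const 2) he (hnb.mono fun a => Nat.sub_le _ _))) (PT.const [])) (PT.const [])

theorem PT.stepE {a₀ b₀ : α → List Bool} {s : α → SL} {l : α → Bool} (ha : PT A a₀)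
    (hb : PT A b₀) (hs : PT A s) (hl : PT A l) : PT A (fun a => stepE (a₀ a) (b₀ a) (s a) (l a)) := by
  have h1 : PT A (fun a => (s a).1.tail) := PT.tail hs.fst
  have h2 : PT A (fun a => (s a).2.1) := hs.snd.fst
  have h3 : PT A (fun a => (s a).2.2.1) := hs.snd.snd.fst
  have h4 : PT A (fun a => (s a).2.2.2) := hs.snd.snd.snd
  have hv : PT A (fun a => (s a).2.2.1.headD false) := PT.headD h3 (PT.const false)
  have hw : PT A (fun a => (s a).2.2.1.tail) := PT.tail h3
  have hn : PT A (fun a => (s a).1.tail.length) := PT.length h1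
  have hnb : PBd (fun a => (s a).1.tail.length) := PBd.length h1
  have hx : PT A (fun a => H313.nxL (s a).2.1 ((s a).2.2.1.headD false)) := PT.nxL h2 hv
  have hall : PT A (fun a => (s a).2.2.1.tail.all (fun x => !x)) :=
    PT.all hw (PT.not PT.id.snd)
  unfold H313.stepE
  exact hl.cond
    (h1.pair ((PT.finL ha hb hx).pair (hw.pair (PT.append h4 (hall.cond
      (PT.append (hv.cond (PT.flL hn hnb h2) (PT.const []))
        (PT.markL (PT.pow (PT.const 2) hn hnb) hx)) (PT.const []))))))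
    (h1.pair (h2.pair (hw.pair h4)))

/-! ### Sizes -/

theorem esize_boolList (l : List Bool) : esize l = 3 * l.length := by
  induction l with
  | nil => rfl
  | cons x l ih =>
    rw [esize_list_cons, ih, esize_bool, List.length_cons]
    ring

/-- The invariant of the loop over the levels. -/
structure InvE (B K i : ℕ) (s : SL) : Prop where
  h1 : s.1.length ≤ K
  h2 : s.2.1.1 ≤ 3
  h3 : s.2.1.2.1.length ≤ B
  h4 : s.2.1.2.2.length ≤ B
  h5 : s.2.2.1.length ≤ B
  h6 : s.2.2.2.length ≤ 2 * i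
  h7 : ∀ x ∈ s.2.2.2, x.1 ≤ 3 ∧ x.2 ≤ 2 ^ K

theorem nxL_bound {B : ℕ} {q : Q} (v : Bool) (h2 : q.1 ≤ 3) (h3 : q.2.1.length ≤ B)
    (h4 : q.2.2.length ≤ B) :
    (nxL q v).1 ≤ 3 ∧ (nxL q v).2.1.length ≤ B ∧ (nxL q v).2.2.length ≤ B := by
  have l1 : q.2.1.tail.length ≤ B := by rw [List.length_tail]; omega
  have l2 : q.2.2.tail.length ≤ B := by rw [List.length_tail]; omega
  unfold nxL
  repeat' (rw [Bool.cond_eq_ite]; split_ifs)
  all_goals simp_all

theorem finL_bound {B : ℕ} {q : Q} {a₀ b₀ : List Bool} (ha : a₀.length ≤ B) (hb : b₀.length ≤ B)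
    (h : q.1 ≤ 3 ∧ q.2.1.length ≤ B ∧ q.2.2.length ≤ B) :
    (finL a₀ b₀ q).1 ≤ 3 ∧ (finL a₀ b₀ q).2.1.length ≤ B ∧ (finL a₀ b₀ q).2.2.length ≤ B := by
  unfold finL
  rw [Bool.cond_eq_ite]
  split_ifs
  · exact h
  · rw [Bool.cond_eq_ite]
    split_ifs
    · exact ⟨by simp, ha, hb⟩
    · exact h

theorem markL_bound (sz : ℕ) (q : Q) : (markL sz q).length ≤ 1 ∧
    ∀ x ∈ markL sz q, x.1 ≤ 3 ∧ x.2 ≤ sz := by
  unfold markL
  cases q.2.1.isEmpty
  · simp
  · cases decide (q.1 = 1)
    · cases decide (q.1 = 2) <;> simp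
    · simp

theorem flL_bound (n : ℕ) (q : Q) : (flL n q).length ≤ 1 ∧
    ∀ x ∈ flL n q, x.1 ≤ 3 ∧ x.2 ≤ 2 ^ n := by
  unfold flL
  rw [Bool.cond_eq_ite]
  split_ifs
  · refine ⟨by simp, fun x hx => ?_⟩
    simp only [List.mem_singleton] at hx
    subst hx
    exact ⟨by simp, Nat.pow_le_pow_right (by norm_num) (Nat.sub_le _ _)⟩
  · simp

theorem InvE.step {B K i : ℕ} {s : SL} {a₀ b₀ : List Bool} (ha : a₀.length ≤ B)
    (hb : b₀.length ≤ B) (l : Bool) (h : InvE B K i s) : InvE B K (i + 1) (stepE a₀ b₀ s l) := by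
  obtain ⟨h1, h2, h3, h4, h5, h6, h7⟩ := h
  have t1 : s.1.tail.length ≤ K := by rw [List.length_tail]; omega
  have t5 : s.2.2.1.tail.length ≤ B := by rw [List.length_tail]; omega
  cases l with
  | false => exact ⟨t1, h2, h3, h4, t5, by simp only [stepE, cond_false]; omega, h7⟩
  | true =>
    obtain ⟨f1, f2, f3⟩ := finL_bound ha hb (nxL_bound (s.2.2.1.headD false) h2 h3 h4)
    have hm := markL_bound (2 ^ s.1.tail.length) (nxL s.2.1 (s.2.2.1.headD false))
    have hf := flL_bound s.1.tail.length s.2.1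
    have hp : 2 ^ s.1.tail.length ≤ 2 ^ K := Nat.pow_le_pow_right (by norm_num) t1
    refine ⟨t1, f1, f2, f3, t5, ?_, ?_⟩
    · simp only [stepE, cond_true, List.length_append]
      cases s.2.2.1.tail.all (fun x => !x)
      · simp only [cond_false, List.length_nil]
        omega
      · cases s.2.2.1.headD false
        · simp only [cond_true, cond_false, List.length_append, List.length_nil]
          have := (markL_bound (2 ^ s.1.tail.length) (nxL s.2.1 false)).1
          omega
        · simp only [cond_true, List.length_append]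
          have := (markL_bound (2 ^ s.1.tail.length) (nxL s.2.1 true)).1
          omega
    · intro x hx
      simp only [stepE, cond_true, List.mem_append] at hx
      rcases hx with hx | hx
      · exact h7 x hx
      · rw [Bool.cond_eq_ite] at hx
        split_ifs at hx
        · rw [List.mem_append] at hx
          rcases hx with hx | hx
          · rw [Bool.cond_eq_ite] at hx
            split_ifs at hx
            · exact ⟨(hf.2 x hx).1, (hf.2 x hx).2.trans hp⟩
            · simp at hx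
          · exact ⟨(hm.2 x hx).1, (hm.2 x hx).2.trans hp⟩
        · simp at hx

theorem InvE.esize_le {B K i : ℕ} {s : SL} (h : InvE B K i s) :
    esize s ≤ 2 * (3 * K) + (2 * (2 * 2 + (2 * (3 * B) + 3 * B + 1) + 1) +
      (2 * (3 * B) + 2 * i * (2 * (2 * 2 + (K + 1) + 1) + 1) + 1) + 1) + 1 := by
  obtain ⟨h1, h2, h3, h4, h5, h6, h7⟩ := h
  obtain ⟨ls, ⟨k, a, b⟩, w, o⟩ := s
  simp only at h1 h2 h3 h4 h5 h6 h7
  have e3 : esize k ≤ 2 := (esize_nat_mono h2).trans (by rw [esize_nat]; decide)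
  have eo : esize o ≤ o.length * (2 * (2 * 2 + (K + 1) + 1) + 1) := by
    refine esize_list_le fun x hx => ?_
    obtain ⟨x1, x2⟩ := x
    obtain ⟨g1, g2⟩ := h7 _ hx
    simp only at g1 g2
    have e1 : esize x1 ≤ 2 := (esize_nat_mono g1).trans (by rw [esize_nat]; decide)
    have e2 : esize x2 ≤ K + 1 := esize_nat_le (lt_of_le_of_lt g2
      (Nat.pow_lt_pow_right (by norm_num) (Nat.lt_succ_self K)))
    rw [esize_pair]
    omega
  have eo' : esize o ≤ 2 * i * (2 * (2 * 2 + (K + 1) + 1) + 1) :=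
    eo.trans (Nat.mul_le_mul_right _ h6)
  rw [esize_pair, esize_pair, esize_pair, esize_pair, esize_pair, esize_boolList, esize_boolList,
    esize_boolList, esize_boolList]
  omega

theorem InvE.foldl {B K : ℕ} {a₀ b₀ : List Bool} (ha : a₀.length ≤ B)
    (hb : b₀.length ≤ B) : ∀ (l : List Bool) (i : ℕ) (s : SL), InvE B K i s →
      InvE B K (i + l.length) (l.foldl (H313.stepE a₀ b₀) s)
  | [], i, s, h => h
  | x :: l, i, s, h => by
    have := InvE.foldl ha hb l (i + 1) (H313.stepE a₀ b₀ s x) (h.step ha hb x)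
    rw [List.foldl_cons]
    rw [List.length_cons]
    rwa [show i + (l.length + 1) = i + 1 + l.length by omega]

theorem PT.evL {a₀ b₀ ls w : α → List Bool} (ha : PT A a₀) (hb : PT A b₀) (hl : PT A ls)
    (hw : PT A w) : PT A (fun a => evL (a₀ a) (b₀ a) (ls a) (w a)) := by
  unfold H313.evL
  have bl := PBd.length hl
  have bB : PBd (fun a => (a₀ a).length + (b₀ a).length + (w a).length) :=
    ((PBd.length ha).add (PBd.length hb)).add (PBd.length hw)
  have hB : PBd (fun a => 2 * (3 * (ls a).length) + (2 * (2 * 2 +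
      (2 * (3 * ((a₀ a).length + (b₀ a).length + (w a).length)) +
        3 * ((a₀ a).length + (b₀ a).length + (w a).length) + 1) + 1) +
      (2 * (3 * ((a₀ a).length + (b₀ a).length + (w a).length)) +
        2 * (ls a).length * (2 * (2 * 2 + ((ls a).length + 1) + 1) + 1) + 1) + 1) + 1) := by
    fun_prop
  refine (PT.foldl (l := ls) (init := fun a => ((ls a, (0, a₀ a, b₀ a), w a, []) : SL))
    (f := fun a => H313.stepE (a₀ a) (b₀ a)) hl
    (hl.pair (((PT.const 0).pair (ha.pair hb)).pair (hw.pair (PT.const []))))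
    (PT.stepE (ha.comp PT.id.fst) (hb.comp PT.id.fst) PT.id.snd.fst PT.id.snd.snd) hB
    fun a i => ?_).snd.snd.snd
  have h0 : InvE ((a₀ a).length + (b₀ a).length + (w a).length) (ls a).length 0
      ((ls a, (0, a₀ a, b₀ a), w a, []) : SL) :=
    ⟨le_rfl, by simp, by simp only; omega, by simp only; omega, by simp only; omega, by simp,
      by simp⟩
  have h1 := InvE.foldl (a₀ := a₀ a) (b₀ := b₀ a) (by omega) (by omega) ((ls a).take i) 0 _ h0
  refine h1.esize_le.trans ?_
  have h2 : 0 + ((ls a).take i).length ≤ (ls a).length := by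
    rw [List.length_take]; omega
  have h3 : 2 * (0 + ((ls a).take i).length) * (2 * (2 * 2 + ((ls a).length + 1) + 1) + 1) ≤
      2 * (ls a).length * (2 * (2 * 2 + ((ls a).length + 1) + 1) + 1) :=
    Nat.mul_le_mul_right _ (by omega)
  omega

end Vale.Agent.P338.R3.H313
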