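import Vale.Agent.P338.R3.H501.DiagPT
import Vale.Agent.P338.R3.H900.DcPT
import Vale.Agent.P338.R3.H352.Mat

/-!
P338-D, module PT-SCHED: the schedule `Geo.fwd`, `Geo.bwd` of helper282 with the one-digit program
of helper352 is computed in polynomial time.
-/

namespace Vale.Agent.P338.R3.H313

open Vale.Agent.Lib.PolyTime
open Vale.Agent.P338.R3.H282
open Vale.Agent.P338.R3.H352 (Dc lprog)
open Vale.Agent.P338.R3.H501

variable {A : Set Word} {α β : Type*} [Enc α] [Enc β]

/-! ### Layers -/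

section ly

variable {δ : Type} [Enc δ]

/-- The data of a layer. -/
def lyT : Ly δ → ℕ × ℕ × Option δ
  | .dn t => (0, t, none)
  | .up t => (1, t, none)
  | .dg c => (2, 0, some c)

instance : Enc (Ly δ) := ⟨fun l => enc (lyT l)⟩

theorem pt_lyT {l : α → Ly δ} (hl : PT A l) : PT A (fun x => lyT (l x)) := by
  obtain ⟨g, hg, hg'⟩ := hl
  exact ⟨g, hg, fun a => hg' a⟩

theorem pt_of_lyT {l : α → Ly δ} (hl : PT A (fun x => lyT (l x))) : PT A l := by
  obtain ⟨g, hg, hg'⟩ := hl
  exact ⟨g, hg, fun a => hg' a⟩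

theorem pt_lydn {t : α → ℕ} (ht : PT A t) : PT A (fun x => (Ly.dn (t x) : Ly δ)) :=
  pt_of_lyT ((PT.const 0).pair (ht.pair (PT.const none)))

theorem pt_lyup {t : α → ℕ} (ht : PT A t) : PT A (fun x => (Ly.up (t x) : Ly δ)) :=
  pt_of_lyT ((PT.const 1).pair (ht.pair (PT.const none)))

theorem pt_lydg {c : α → δ} (hc : PT A c) : PT A (fun x => (Ly.dg (c x) : Ly δ)) :=
  pt_of_lyT ((PT.const 2).pair ((PT.const 0).pair (PT.some hc)))

theorem pt_lycases {l : α → Ly δ} (hl : PT A l) {f0 f1 : α → ℕ → β} {f2 : α → δ → β}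
    (h0 : PT A (fun q : α × ℕ => f0 q.1 q.2)) (h1 : PT A (fun q : α × ℕ => f1 q.1 q.2))
    (h2 : PT A (fun q : α × δ => f2 q.1 q.2)) :
    PT A (fun x => match l x with
      | .dn t => f0 x t
      | .up t => f1 x t
      | .dg c => f2 x c) := by
  have ht := pt_lyT hl
  have e0 := h0.comp (PT.id.pair ht.snd.fst)
  have e1 := h1.comp (PT.id.pair ht.snd.fst)
  have e2 := PT.optCase ht.snd.snd e0 h2
  refine ((PT.eqNat ht.fst (PT.const 0)).cond e0
    ((PT.eqNat ht.fst (PT.const 1)).cond e1 e2)).congr fun x => ?_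
  cases l x <;> simp [lyT]

end ly

/-! ### Steps -/

section st

variable {δ : Type} [Enc δ] [Inhabited δ]

/-- The data of a step. -/
def stT : St δ → ℕ × List ℕ × Option (DC δ)
  | .dn J => (0, J, none)
  | .up J => (1, J, none)
  | .dg c => (2, [], some c)

instance : Enc (St δ) := ⟨fun l => enc (stT l)⟩

theorem pt_stT {l : α → St δ} (hl : PT A l) : PT A (fun x => stT (l x)) := by
  obtain ⟨g, hg, hg'⟩ := hl
  exact ⟨g, hg, fun a => hg' a⟩

theorem pt_of_stT {l : α → St δ} (hl : PT A (fun x => stT (l x))) : PT A l := by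
  obtain ⟨g, hg, hg'⟩ := hl
  exact ⟨g, hg, fun a => hg' a⟩

theorem pt_stdn {J : α → List ℕ} (hJ : PT A J) : PT A (fun x => (St.dn (J x) : St δ)) :=
  pt_of_stT ((PT.const 0).pair (hJ.pair (PT.const none)))

theorem pt_stup {J : α → List ℕ} (hJ : PT A J) : PT A (fun x => (St.up (J x) : St δ)) :=
  pt_of_stT ((PT.const 1).pair (hJ.pair (PT.const none)))

theorem pt_stdg {c : α → DC δ} (hc : PT A c) : PT A (fun x => (St.dg (c x) : St δ)) :=
  pt_of_stT ((PT.const 2).pair ((PT.const []).pair (PT.some hc)))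

theorem pt_stcases {l : α → St δ} (hl : PT A l) {f0 f1 : α → List ℕ → β} {f2 : α → DC δ → β}
    (h0 : PT A (fun q : α × List ℕ => f0 q.1 q.2)) (h1 : PT A (fun q : α × List ℕ => f1 q.1 q.2))
    (h2 : PT A (fun q : α × DC δ => f2 q.1 q.2)) :
    PT A (fun x => match l x with
      | .dn J => f0 x J
      | .up J => f1 x J
      | .dg c => f2 x c) := by
  have ht := pt_stT hl
  have e0 := h0.comp (PT.id.pair ht.snd.fst)
  have e1 := h1.comp (PT.id.pair ht.snd.fst)
  have e2 := PT.optCase ht.snd.snd e0 h2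
  refine ((PT.eqNat ht.fst (PT.const 0)).cond e0
    ((PT.eqNat ht.fst (PT.const 1)).cond e1 e2)).congr fun x => ?_
  cases l x <;> simp [stT]

end st

/-! ### The one-digit program -/

theorem pt_dcbA {t : α → ℕ} (ht : PT A t) : PT A (fun x => Dc.bA (t x)) :=
  H900.PT.dcT_of ((PT.const 0).pair (ht.pair (PT.const (false, false))))
theorem pt_dcbB {t : α → ℕ} (ht : PT A t) : PT A (fun x => Dc.bB (t x)) :=
  H900.PT.dcT_of ((PT.const 1).pair (ht.pair (PT.const (false, false))))
theorem pt_dcbC {t : α → ℕ} (ht : PT A t) : PT A (fun x => Dc.bC (t x)) :=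
  H900.PT.dcT_of ((PT.const 2).pair (ht.pair (PT.const (false, false))))

/-- Butterflies, in closed form. -/
def lg (r : ℕ) : List (Ly Dc) :=
  (List.range r).reverse.flatMap fun t => [.dn t, .dg (.bA t), .up t, .dg (.bB t)]

/-- Inverse butterflies, in closed form. -/
def lgi (r : ℕ) : List (Ly Dc) :=
  (List.range r).flatMap fun t => [.dg (.bC t), .dn t, .dg (.bA t), .up t]

theorem map_gL (r : ℕ) : (H352.gL r).map H352.toL = lg r := by
  induction r with
  | zero => rfl
  | succ r ih =>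
    rw [H352.gL, List.map_append, ih, lg, lg, List.range_succ, List.reverse_append]
    rfl

theorem map_giL (r : ℕ) : (H352.giL r).map H352.toL = lgi r := by
  induction r with
  | zero => rfl
  | succ r ih =>
    rw [H352.giL, List.map_append, ih, lgi, lgi, List.range_succ, List.flatMap_append]
    rfl

theorem pt_lg {r : α → ℕ} (hr : PT A r) (hb : PBd r) : PT A (fun x => lg (r x)) := by
  unfold lg
  have h1 : PT A (fun q : α × ℕ => q.2) := PT.id.snd
  exact PT.flatMap (f := fun _ t => [Ly.dn t, .dg (Dc.bA t), .up t, .dg (Dc.bB t)])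
    (PT.reverse (PT.range hr hb)) (PT.cons (pt_lydn h1) (PT.cons (pt_lydg (pt_dcbA h1))
      (PT.cons (pt_lyup h1) (PT.cons (pt_lydg (pt_dcbB h1)) (PT.const [])))))

theorem pt_lgi {r : α → ℕ} (hr : PT A r) (hb : PBd r) : PT A (fun x => lgi (r x)) := by
  unfold lgi
  have h1 : PT A (fun q : α × ℕ => q.2) := PT.id.snd
  exact PT.flatMap (f := fun _ t => [Ly.dg (Dc.bC t), .dn t, .dg (Dc.bA t), .up t])
    (PT.range hr hb) (PT.cons (pt_lydg (pt_dcbC h1)) (PT.cons (pt_lydn h1)
      (PT.cons (pt_lydg (pt_dcbA h1)) (PT.cons (pt_lyup h1) (PT.const [])))))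

/-- A half. -/
def lh (a : ℕ) (w sg : Bool) : List (Ly Dc) :=
  lg a ++ ([Ly.dg (.mul w sg), (bif w then .dn a else .up a), Ly.dg (.div w sg)] ++ lgi a)

theorem map_half (a : ℕ) (w sg : Bool) : (H352.half a w sg).map H352.toL = lh a w sg := by
  rw [H352.half, List.map_append, List.map_append, map_gL, map_giL]
  cases w <;> rfl

theorem pt_lh {a : α → ℕ} (ha : PT A a) (hb : PBd a) (w sg : Bool) :
    PT A (fun x => lh (a x) w sg) := by
  unfold lh
  have h1 : PT A (fun x => (bif w then Ly.dn (a x) else Ly.up (a x) : Ly Dc)) :=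
    PT.cond (PT.const w) (pt_lydn ha) (pt_lyup ha)
  exact PT.append (pt_lg ha hb) (PT.append (PT.cons (PT.const (Ly.dg (Dc.mul w sg)))
    (PT.cons h1 (PT.const [Ly.dg (Dc.div w sg)]))) (pt_lgi ha hb))

/-- A block. -/
def lb (a : ℕ) (w : Bool) : List (Ly Dc) :=
  [Ly.dg (.pre w)] ++ (lh a w false ++ ([Ly.dg (.psi false)] ++ (lh a w true ++
    [Ly.dg (.psi true), Ly.dg (.post w)])))

theorem map_blk (a : ℕ) (w : Bool) : (H352.blk a w).map H352.toL = lb a w := by
  simp only [H352.blk, List.map_append, map_half]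
  rfl

theorem pt_lb {a : α → ℕ} (ha : PT A a) (hb : PBd a) (w : Bool) : PT A (fun x => lb (a x) w) := by
  unfold lb
  exact PT.append (PT.const _) (PT.append (pt_lh ha hb w false) (PT.append (PT.const _)
    (PT.append (pt_lh ha hb w true) (PT.const _))))

theorem lprog_eq (a : ℕ) : lprog a = lb a false ++ (lb a true ++ lb a false) := by
  simp only [H352.lprog, H352.prog, List.map_append, map_blk]

theorem pt_lprog {a : α → ℕ} (ha : PT A a) (hb : PBd a) : PT A (fun x => lprog (a x)) :=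
  (PT.append (pt_lb ha hb false) (PT.append (pt_lb ha hb true) (pt_lb ha hb false))).congr
    fun x => (lprog_eq (a x)).symm

/-! ### The schedule -/

section sched

variable {δ : Type} [Enc δ] [Inhabited δ] {G : α → Geo} {prog : α → List (Ly δ)} {J : α → List ℕ}

theorem pt_lk (h : GeoPT A G) (hJ : PT A J) {l : α → Ly δ} (hl : PT A l) :
    PT A (fun x => (G x).lk (J x) (l x)) := by
  have h1 : PT A (fun q : α × ℕ => (J q.1).map ((G q.1).bp q.2)) := by
    refine PT.map (f := fun q i => (G q.1).bp q.2 i) (hJ.comp PT.fst') ?_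
    exact (h.comp PT.fst'.fst).bp PT.fst'.snd PT.snd'
  have h2 : PT A (fun q : α × δ => (St.dg (.loc (J q.1) q.2) : St δ)) :=
    pt_stdg (pt_loc (hJ.comp PT.fst') PT.snd')
  refine (pt_lycases (f0 := fun x t => (St.dn ((J x).map ((G x).bp t)) : St δ))
    (f1 := fun x t => St.up ((J x).map ((G x).bp t))) (f2 := fun x c => St.dg (.loc (J x) c))
    hl (pt_stdn h1) (pt_stup h1) h2).congr fun x => ?_
  cases l x <;> rfl

theorem pt_W (h : GeoPT A G) (hp : PT A prog) (hJ : PT A J) :
    PT A (fun x => (G x).W (prog x) (J x)) := by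
  unfold Geo.W
  exact PT.map (f := fun x => (G x).lk (J x)) hp
    (pt_lk (h.comp PT.fst') (hJ.comp PT.fst') PT.snd')

theorem pt_pos (h : GeoPT A G) {i : α → ℕ} (hi : PT A i) :
    PT A (fun x => (G x).a * (G x).d + i x) := PT.add (PT.mul h.a h.d) hi

theorem pt_selF (h : GeoPT A G) {i : α → ℕ} (hi : PT A i) :
    PT A (fun x => ((G x).selF (i x) : List (St δ))) := by
  have h1 : PT A (fun x => [(G x).a * (G x).d + i x]) := PT.cons (pt_pos h hi) (PT.const [])
  unfold Geo.selF
  exact PT.cons (pt_stdn h1) (PT.cons (pt_stdg (pt_hd hi)) (PT.cons (pt_stup h1)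
    (PT.cons (pt_stdg (pt_tw (PT.const false) hi)) (PT.const []))))

theorem pt_selI (h : GeoPT A G) {i : α → ℕ} (hi : PT A i) :
    PT A (fun x => ((G x).selI (i x) : List (St δ))) := by
  have h1 : PT A (fun x => [(G x).a * (G x).d + i x]) := PT.cons (pt_pos h hi) (PT.const [])
  unfold Geo.selI
  exact PT.cons (pt_stdg (pt_tw (PT.const true) hi)) (PT.cons (pt_stdn h1)
    (PT.cons (pt_stdg (pt_hd hi)) (PT.cons (pt_stup h1) (PT.const []))))

theorem pt_stA (h : GeoPT A G) (hp : PT A prog) (neg : Bool) {p : α → ℕ} (hq : PT A p) :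
    PT A (fun x => (G x).stA (prog x) neg (p x)) := by
  unfold Geo.stA
  exact PT.append (pt_W h hp (h.posJ hq)) (PT.cons (pt_stdg (pt_shA (PT.const neg) hq))
    (pt_W h hp (h.posJ hq)))

theorem pt_stB (h : GeoPT A G) (hp : PT A prog) (neg : Bool) {g : α → ℕ} (hg : PT A g) :
    PT A (fun x => (G x).stB (prog x) neg (g x)) := by
  unfold Geo.stB
  exact PT.append (pt_W h hp (h.grpJ hg)) (PT.cons (pt_stdg (pt_shB (PT.const neg) hg))
    (pt_W h hp (h.grpJ hg)))

theorem range'_one_eq (n : ℕ) : List.range' 1 n = (List.range n).map (· + 1) := by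
  apply List.ext_getElem
  · simp
  · intro i h1 h2
    simp [Nat.add_comm]

theorem pt_range1 {n : α → ℕ} (hn : PT A n) (hb : PBd n) :
    PT A (fun x => List.range' 1 (n x)) :=
  (PT.map (f := fun _ k => k + 1) (PT.range hn hb) (PT.add PT.snd' (PT.const 1))).congr
    fun x => (range'_one_eq (n x)).symm

theorem pt_fwd (h : GeoPT A G) (hp : PT A prog) : PT A (fun x => (G x).fwd (prog x)) := by
  unfold Geo.fwd
  have h' := h.comp (PT.fst' : PT A (fun q : α × ℕ => q.1))
  have hp' := hp.comp (PT.fst' : PT A (fun q : α × ℕ => q.1))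
  exact PT.append (PT.flatMap (f := fun x => (G x).selF) (PT.reverse (PT.range h.s h.sb))
      (pt_selF h' PT.snd'))
    (PT.append (PT.flatMap (f := fun x => (G x).stA (prog x) false)
      (PT.reverse (pt_range1 (PT.sub h.gs (PT.const 1)) (h.gsb.mono fun _ => Nat.sub_le _ _)))
      (pt_stA h' hp' false PT.snd'))
    (PT.append (PT.flatMap (f := fun x => (G x).stB (prog x) false)
      (PT.reverse (pt_range1 h.t h.tb)) (pt_stB h' hp' false PT.snd'))
    (pt_W h hp (PT.range h.d h.db))))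

theorem pt_bwd (h : GeoPT A G) (hp : PT A prog) : PT A (fun x => (G x).bwd (prog x)) := by
  unfold Geo.bwd
  have h' := h.comp (PT.fst' : PT A (fun q : α × ℕ => q.1))
  have hp' := hp.comp (PT.fst' : PT A (fun q : α × ℕ => q.1))
  exact PT.cons (PT.const (St.dg DC.corr)) (PT.append (pt_W h hp (PT.range h.d h.db))
    (PT.append (PT.flatMap (f := fun x => (G x).stB (prog x) true)
      (pt_range1 h.t h.tb) (pt_stB h' hp' true PT.snd'))
    (PT.append (PT.flatMap (f := fun x => (G x).stA (prog x) true)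
      (pt_range1 (PT.sub h.gs (PT.const 1)) (h.gsb.mono fun _ => Nat.sub_le _ _))
      (pt_stA h' hp' true PT.snd'))
    (PT.flatMap (f := fun x => (G x).selI) (PT.range h.s h.sb) (pt_selI h' PT.snd')))))

end sched

end Vale.Agent.P338.R3.H313
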