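import Vale.Agent.P338.R3.H651.ZDef
import Vale.Agent.P338.R3.H527.Best
import Vale.Agent.P338.R3.H527.Word3
import Vale.Agent.P338.R3.H313.Micro

/-!
P338-D, module PT-SCHED: the list of the sweeps of a zeta step (helper651's `sws`) is computed in
polynomial time.
-/

namespace Vale.Agent.P338.R3.H313

open Vale.Agent.Lib.PolyTime
open Vale.Agent.P338.R2.H110 (act cpl)
open Vale.Agent.P338.R3.H651 (firstAct restAct nfull sws sw1 rv)
open Vale.Agent.P338.R3.H527 (Slide)

variable {A : Set Word} {α : Type*} [Enc α]

theorem bw_eq (m i : ℕ) : H527.bw m i = bw m i := by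
  induction m with
  | zero => rfl
  | succ m ih => rw [bw_succ, ← ih]; rfl

theorem pt_bw {m i : α → ℕ} (hm : PT A m) (hb : PBd m) (hi : PT A i) :
    PT A (fun a => H527.bw (m a) (i a)) :=
  (PT.bw hm hb hi).congr fun _ => (bw_eq _ _).symm

theorem pt_cpl {w : α → List Bool} (hw : PT A w) : PT A (fun a => cpl (w a)) :=
  PT.map hw (PT.not PT.id.snd)

theorem pt_act {ls : α → List Bool} (hl : PT A ls) : PT A (fun a => act (ls a)) := by
  refine (PT.length (PT.filter (f := fun _ b => b) hl PT.id.snd)).congr fun a => ?_
  unfold act
  rw [List.count_eq_length_filter]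
  congr 2
  funext b
  cases b <;> rfl

/-! ### Splitting of the levels -/

/-- One level of the splitting. -/
def spStep (f : Bool) (s : ℕ × List Bool) (b : Bool) : ℕ × List Bool :=
  bif b then (bif decide (s.1 = 0) then (0, (!f) :: s.2) else (s.1 - 1, f :: s.2))
  else (s.1, false :: s.2)

theorem foldl_spStep_true (ls : List Bool) (n : ℕ) (o : List Bool) :
    (ls.foldl (spStep true) (n, o)).2.reverse = o.reverse ++ firstAct n ls := by
  induction ls generalizing n o with
  | nil => cases n <;> simp [firstAct]
  | cons b ls ih =>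
    rw [List.foldl_cons]
    cases b with
    | false =>
      have : spStep true (n, o) false = (n, false :: o) := rfl
      rw [this, ih]
      cases n <;> simp [firstAct]
    | true =>
      cases n with
      | zero =>
        have : spStep true (0, o) true = (0, false :: o) := rfl
        rw [this, ih]
        simp [firstAct]
      | succ n =>
        have : spStep true (n + 1, o) true = (n, true :: o) := by simp [spStep]
        rw [this, ih]
        simp [firstAct]

theorem foldl_spStep_false (ls : List Bool) (n : ℕ) (o : List Bool) :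
    (ls.foldl (spStep false) (n, o)).2.reverse = o.reverse ++ restAct n ls := by
  induction ls generalizing n o with
  | nil => cases n <;> simp [restAct]
  | cons b ls ih =>
    rw [List.foldl_cons]
    cases b with
    | false =>
      have : spStep false (n, o) false = (n, false :: o) := rfl
      rw [this, ih]
      cases n <;> simp [restAct]
    | true =>
      cases n with
      | zero =>
        have : spStep false (0, o) true = (0, true :: o) := rfl
        rw [this, ih]
        simp [restAct]
      | succ n =>
        have : spStep false (n + 1, o) true = (n, false :: o) := by simp [spStep]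
        rw [this, ih]
        simp [restAct]

theorem foldl_spStep_bound (f : Bool) (ls : List Bool) (n : ℕ) (o : List Bool) :
    (ls.foldl (spStep f) (n, o)).1 ≤ n ∧
      (ls.foldl (spStep f) (n, o)).2.length = o.length + ls.length := by
  induction ls generalizing n o with
  | nil => simp
  | cons b ls ih =>
    rw [List.foldl_cons]
    cases b with
    | false =>
      obtain ⟨h1, h2⟩ := ih n (false :: o)
      refine ⟨h1, ?_⟩
      simp only [List.length_cons] at h2 ⊢
      have : spStep f (n, o) false = (n, false :: o) := rfl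
      rw [this, h2]
      omega
    | true =>
      by_cases h : n = 0
      · subst h
        have e : spStep f (0, o) true = (0, (!f) :: o) := rfl
        obtain ⟨h1, h2⟩ := ih 0 ((!f) :: o)
        rw [e]
        refine ⟨h1, ?_⟩
        rw [h2, List.length_cons, List.length_cons]
        omega
      · have e : spStep f (n, o) true = (n - 1, f :: o) := by simp [spStep, h]
        obtain ⟨h1, h2⟩ := ih (n - 1) (f :: o)
        rw [e]
        refine ⟨h1.trans (Nat.sub_le _ _), ?_⟩
        rw [h2, List.length_cons, List.length_cons]
        omega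

theorem pt_split (f : Bool) {n : α → ℕ} {ls : α → List Bool} (hn : PT A n) (hl : PT A ls) :
    PT A (fun a => ((ls a).foldl (spStep f) (n a, [])).2.reverse) := by
  have hs : PT A (fun p : α × (ℕ × List Bool) × Bool => spStep f p.2.1 p.2.2) := by
    have h1 : PT A (fun p : α × (ℕ × List Bool) × Bool => p.2.1.1) := PT.id.snd.fst.fst
    have h2 : PT A (fun p : α × (ℕ × List Bool) × Bool => p.2.1.2) := PT.id.snd.fst.snd
    exact (PT.id.snd.snd).cond ((PT.eqNat h1 (PT.const 0)).cond
      ((PT.const 0).pair (PT.cons (PT.const (!f)) h2))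
      ((PT.sub h1 (PT.const 1)).pair (PT.cons (PT.const f) h2)))
      (h1.pair (PT.cons (PT.const false) h2))
  have hB : PBd (fun a => 2 * esize (n a) + 3 * (ls a).length + 1) := by
    have h1 := hn.pbd
    have h2 := PBd.length hl
    fun_prop
  refine PT.reverse (PT.foldl (init := fun a => (n a, ([] : List Bool)))
    (f := fun _ => spStep f) hl (hn.pair (PT.const [])) hs hB fun a i => ?_).snd
  obtain ⟨h1, h2⟩ := foldl_spStep_bound f ((ls a).take i) (n a) []
  have h3 : ((ls a).take i).length ≤ (ls a).length := by rw [List.length_take]; omega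
  have e1 := esize_nat_mono h1
  have e2 : esize (((ls a).take i).foldl (spStep f) (n a, [])).2 ≤ 3 * (ls a).length := by
    rw [esize_boolList, h2, List.length_nil]
    omega
  have e3 : esize (((ls a).take i).foldl (spStep f) (n a, [])) =
      2 * esize (((ls a).take i).foldl (spStep f) (n a, [])).1 +
        esize (((ls a).take i).foldl (spStep f) (n a, [])).2 + 1 := esize_pair _ _
  rw [e3]
  omega

theorem pt_firstAct {n : α → ℕ} {ls : α → List Bool} (hn : PT A n) (hl : PT A ls) :
    PT A (fun a => firstAct (n a) (ls a)) :=
  (pt_split true hn hl).congr fun a => by rw [foldl_spStep_true]; rfl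

theorem pt_restAct {n : α → ℕ} {ls : α → List Bool} (hn : PT A n) (hl : PT A ls) :
    PT A (fun a => restAct (n a) (ls a)) :=
  (pt_split false hn hl).congr fun a => by rw [foldl_spStep_false]; rfl

/-! ### Sweeps -/

theorem pt_sweep {m : α → ℕ} {ls : α → List Bool} {t : α → Slide} (hm : PT A m) (hb : PBd m)
    (hl : PT A ls) (ht : PT A t) : PT A (fun a => H651.sw (m a) (ls a) (t a)) := by
  have h1 : PT A (fun a => H527.bw (m a) (t a).2.1) := pt_bw hm hb ht.snd.fst
  have h2 : PT A (fun a => H527.bw (m a) (t a).1) := pt_bw hm hb ht.fst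
  unfold H651.sw
  exact PT.ite (PT.lt ht.snd.fst ht.fst)
    (((PT.const true).pair ht.snd.snd).pair (h1.pair (h2.pair hl)))
    (((PT.const false).pair ht.snd.snd).pair ((pt_cpl h1).pair ((pt_cpl h2).pair hl)))

theorem pt_sw1 {ls : α → List Bool} (hl : PT A ls) : PT A (fun a => sw1 (ls a)) :=
  (PT.const (true, true)).pair ((PT.const [false]).pair ((PT.const [true]).pair hl))

theorem pt_rv {x : α → Sw} (hx : PT A x) : PT A (fun a => rv (x a)) :=
  (hx.fst.fst.not.pair hx.fst.snd).pair hx.snd

theorem pt_nfull {m : α → ℕ} {ls : α → List Bool} (hm : PT A m) (hl : PT A ls) :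
    PT A (fun a => nfull (m a) (ls a)) :=
  PT.mul hm (PT.div (pt_act hl) hm)

theorem pt_sws {tr : α → Bool} {P : α → ℕ × List Slide} {ls : α → List Bool} (ht : PT A tr)
    (hP : PT A P) (hb : PBd (fun a => (P a).1)) (hl : PT A ls) :
    PT A (fun a => sws (tr a) (P a) (ls a)) := by
  have hn : PT A (fun a => nfull (P a).1 (ls a)) := pt_nfull hP.fst hl
  have h1 : PT A (fun a => firstAct (nfull (P a).1 (ls a)) (ls a)) := pt_firstAct hn hl
  have h2 : PT A (fun a => restAct (nfull (P a).1 (ls a)) (ls a)) := pt_restAct hn hl
  have hb' : PBd (fun q : α × Slide => (P q.1).1) :=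
    PBd.comp (A := A) (b := fun a => (P a).1) hb (PT.id.fst : PT A (fun q : α × Slide => q.1))
  have h3 : PT A (fun a => (P a).2.map
      (H651.sw (P a).1 (firstAct (nfull (P a).1 (ls a)) (ls a)))) :=
    PT.map (f := fun a => H651.sw (P a).1 (firstAct (nfull (P a).1 (ls a)) (ls a))) hP.snd
      (pt_sweep (hP.fst.comp PT.id.fst) hb' (h1.comp PT.id.fst) PT.id.snd)
  have h4 : PT A (fun a => (P a).2.map
      (H651.sw (P a).1 (firstAct (nfull (P a).1 (ls a)) (ls a))) ++
        [sw1 (restAct (nfull (P a).1 (ls a)) (ls a))]) :=
    PT.append h3 (PT.cons (pt_sw1 h2) (PT.const []))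
  unfold sws
  refine PT.map (f := fun a x => if tr a then rv x else x) h4 ?_
  have h5 : PT A (fun q : α × Sw => tr q.1) := ht.comp PT.id.fst
  exact PT.ite (h5.congr fun q => by simp) (pt_rv PT.id.snd) PT.id.snd

/-! ### Levels -/

theorem lvl_eq (J : List ℕ) (K : ℕ) :
    H527.lvl J K = (List.range K).reverse.map fun k => decide (k ∈ J) := by
  induction K with
  | zero => rfl
  | succ K ih =>
    rw [List.range_succ, List.reverse_append]
    simp [H527.lvl, ih]

theorem pt_lvl {J : α → List ℕ} {K : α → ℕ} (hJ : PT A J) (hK : PT A K) (hb : PBd K) :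
    PT A (fun a => H527.lvl (J a) (K a)) := by
  refine (PT.map (f := fun a k => decide (k ∈ J a)) (PT.reverse (PT.range hK hb)) ?_).congr
    fun a => (lvl_eq _ _).symm
  exact PT.mem (hJ.comp PT.id.fst) PT.id.snd

/-! ### The program of the least ratio -/

theorem pbd_best {d : α → ℕ} (hb : PBd d) : PBd (fun a => (H527.best (d a)).1) := by
  have h1 : PBd (fun a => Nat.size (d a) + 2) := by
    have := hb
    exact (hb.add (PBd.const 2)).mono fun a => by
      have : Nat.size (d a) ≤ d a := by
        rw [← esize_nat]; exact esize_nat_le_self _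
      omega
  exact h1.mono fun a => (Nat.lt_two_pow_self.le.trans (H527.best_two_pow_le (d a)))

end Vale.Agent.P338.R3.H313
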