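import Vale.Agent.P338.R3.H313.MicroDef
import Vale.Agent.P338.R3.H313.ZPT
import Vale.Agent.P338.R3.H313.SchedPT

/-!
P338-D, module PT-SCHED: **the whole control of the multiplication core is computed in polynomial
time** (with the unary number in the code of the parameters).
-/

namespace Vale.Agent.P338.R3.H313

open Vale.Agent.Lib.PolyTime
open Vale.Agent.P338.R3.H282 (Geo St DC)
open Vale.Agent.P338.R3.H352 (Dc lprog)
open Vale.Agent.P338.R3.H501
open Vale.Agent.P338.R3.H501.Rad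
open Vale.Agent.P338.R3.H527 (Slide best lvl)
open Vale.Agent.P338.R3.H651 (sws)

variable {A : Set Word} {α : Type*} [Enc α]

theorem geoPT_geo {d s : α → ℕ} (hd : PT A d) (hdb : PBd d) (hs : PT A s) (hsb : PBd s) :
    GeoPT A (fun x => H121.geo (d x) (s x)) where
  a := pt_aR hd
  ab := pbd_aR hdb
  d := hd
  db := hdb
  s := hs
  sb := hsb
  gs := PT.add (PT.natSqrt hd) (PT.const 1)
  gsb := (hdb.mono fun x => Nat.sqrt_le_self (d x)).add (PBd.const 1)
  t := PT.div hd (PT.add (PT.natSqrt hd) (PT.const 1))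
  tb := hdb.mono fun _ => Nat.div_le_self _ _
  q := pt_sR (hd.comp PT.fst') (PBd.comp (A := A) (b := fun x => d x) hdb PT.fst') PT.snd'
  q0 := fun _ _ => sR_pos _ _
  iv := pt_invR (hd.comp PT.fst') (PBd.comp (A := A) (b := fun x => d x) hdb PT.fst')
    PT.snd'.fst PT.snd'.snd

variable {p : α → PV}

theorem geoPT_GP (hp : PT A p) : GeoPT A (fun x => GP (p x)) :=
  geoPT_geo (pt_d hp) (pbd_d hp) (pt_s hp) (pbd_s hp)

theorem pt_KP (hp : PT A p) : PT A (fun x => KP (p x)) :=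
  PT.add (PT.mul (pt_a hp) (pt_d hp)) (pt_s hp)

theorem pbd_KP (hp : PT A p) : PBd (fun x => KP (p x)) :=
  ((pbd_a hp).mul (pbd_d hp)).add (pbd_s hp)

theorem pt_PP (hp : PT A p) : PT A (fun x => PP (p x)) :=
  H527.PT.best (PT.add (pt_d hp) (pt_s hp)) ((pbd_d hp).add (pbd_s hp))

theorem pbd_PP (hp : PT A p) : PBd (fun x => (PP (p x)).1) :=
  pbd_best ((pbd_d hp).add (pbd_s hp))

theorem pt_zs {P : α → ℕ × List Slide} {K : α → ℕ} {tr : α → Bool} {J : α → List ℕ}
    (hP : PT A P) (hPb : PBd (fun x => (P x).1)) (hK : PT A K) (hKb : PBd K) (ht : PT A tr)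
    (hJ : PT A J) : PT A (fun x => zs (P x) (K x) (tr x) (J x)) := by
  unfold zs
  have h1 : PT A (fun x => (J x).map (· + 2)) :=
    PT.map (f := fun _ k => k + 2) hJ (PT.add PT.snd' (PT.const 2))
  exact pt_sws ht hP hPb (pt_lvl h1 (PT.add hK (PT.const 2)) (hKb.add (PBd.const 2)))

theorem pt_stM {P : α → ℕ × List Slide} {K : α → ℕ} {st : α → St Dc} (hP : PT A P)
    (hPb : PBd (fun x => (P x).1)) (hK : PT A K) (hKb : PBd K) (hs : PT A st) :
    PT A (fun x => stM (P x) (K x) (st x)) := by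
  have hf : PT A (fun q : α × List ℕ => q.1) := PT.fst'
  have hPb' : PBd (fun q : α × List ℕ => (P q.1).1) :=
    PBd.comp (A := A) (b := fun a => (P a).1) hPb hf
  have hKb' : PBd (fun q : α × List ℕ => K q.1) := PBd.comp (A := A) (b := fun a => K a) hKb hf
  have hz : ∀ tr : Bool, PT A (fun q : α × List ℕ =>
      ((zs (P q.1) (K q.1) tr q.2).flatMap swM : List (Mc (DC Dc)))) := fun tr =>
    PT.flatMap (f := fun _ c => swM c)
      (pt_zs (hP.comp hf) hPb' (hK.comp hf) hKb' (PT.const tr) PT.snd') (pt_swM PT.snd')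
  have h2 : PT A (fun q : α × DC Dc => [Mc.dg q.2, .rew]) :=
    PT.cons (pt_dg PT.snd') (PT.const [Mc.rew])
  refine (pt_stcases (f0 := fun x J => ((zs (P x) (K x) true J).flatMap swM : List (Mc (DC Dc))))
    (f1 := fun x J => (zs (P x) (K x) false J).flatMap swM) (f2 := fun _ c => [Mc.dg c, .rew])
    hs (hz true) (hz false) h2).congr fun x => ?_
  cases st x <;> rfl

theorem pt_fwP (hp : PT A p) : PT A (fun x => fwP (p x)) :=
  pt_fwd (geoPT_GP hp) (pt_lprog (pt_a hp) (pbd_a hp))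

theorem pt_bkP (hp : PT A p) : PT A (fun x => bkP (p x)) :=
  pt_bwd (geoPT_GP hp) (pt_lprog (pt_a hp) (pbd_a hp))

/-- The list of all passes. -/
theorem pt_micro (hp : PT A p) : PT A (fun x => micro (p x)) := by
  unfold micro
  have hf : PT A (fun q : α × St Dc => p q.1) := hp.comp PT.fst'
  have hs : PT A (fun q : α × St Dc => stM (PP (p q.1)) (KP (p q.1)) q.2) :=
    pt_stM (pt_PP hf) (pbd_PP hf) (pt_KP hf) (pbd_KP hf) PT.snd'
  exact PT.append (PT.const [Mc.load, .rew]) (PT.append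
    (PT.flatMap (f := fun x => stM (PP (p x)) (KP (p x))) (pt_fwP hp) hs)
    (PT.append (PT.const [Mc.prod, .rew]) (PT.append
      (PT.flatMap (f := fun x => stM (PP (p x)) (KP (p x))) (pt_bkP hp) hs)
      (PT.const [Mc.zb, .unl]))))

theorem pt_ulv : PT A ulv := (geoPT_GP PT.id.fst).valid PT.id.snd

theorem pt_ldv : PT A ldv := by
  have h := geoPT_GP (A := A) (α := PV × ℕ) (p := fun x => x.1) PT.id.fst
  exact PT.and (h.valid PT.id.snd)
    (PT.not (PT.testBit PT.id.snd (PT.add (PT.mul h.a h.d) (PT.sub h.s (PT.const 1)))))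

theorem pt_nTp : PT ∅ nTp := Ctl.pt_nTs (pt_micro PT.id)

theorem pt_nUp : PT ∅ nUp :=
  Ctl.pt_nUs (pt_micro PT.id) (pt_len (pt_KP PT.id) (pbd_KP (A := ∅) PT.id))

/-- **The instructions are computed in polynomial time** if the words of the constants are. -/
theorem pt_insP {cw : PV × DC Dc × ℕ → List Bool × List Bool} (hc : PT ∅ cw) :
    PT ∅ (insP cw) :=
  Ctl.pt_insS (pt_micro PT.id) (pt_ev (pt_KP PT.id) (pbd_KP (A := ∅) PT.id) hc pt_ldv pt_ulv)

end Vale.Agent.P338.R3.H313
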