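import Vale.Agent.P338.R3.H313.MicroPT
import Vale.Agent.P338.R3.H900.Wd
import Vale.Agent.P338.R3.H121.Par

/-!
P338-D: the words of the constants of all diagonals as one polynomial time function.
-/

namespace Vale.Agent.P338.R3.H313

open Vale.Agent.Lib.PolyTime
open Vale.Agent.P338.R3.H282 (Geo St DC Ly)
open Vale.Agent.P338.R3.H352 (Dc lprog)
open Vale.Agent.P338.R3.H501
open Vale.Agent.P338.R3.H501.Rad
open Vale.Agent.P338.R3.H900
open Vale.Agent.P338.R3.H121 (bW sc)

/-- The exact value of the constant. -/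
noncomputable def zV (x : PV × DC Dc × ℕ) : ℂ :=
  (GP x.1).val (fun q => lvc (aR x.1.d) q) x.2.1 x.2.2

theorem cpt_zV : CPT ∅ zV := by
  have hp : PT ∅ (fun x : PV × DC Dc × ℕ => x.1) := PT.id.fst
  have hc : PT ∅ (fun x : PV × DC Dc × ℕ => x.2.1) := PT.id.snd.fst
  have hu : PT ∅ (fun x : PV × DC Dc × ℕ => x.2.2) := PT.id.snd.snd
  have hG := geoPT_GP (A := ∅) hp
  have h := cpt_val (A := ∅) (G := fun x : PV × DC Dc × ℕ => GP x.1)
    (lv := fun x => fun q => lvc (aR x.1.d) q) (c := fun x => x.2.1) (u := fun x => x.2.2) hG hc hu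
    (fun e he => by
      have hf : PT ∅ (fun q : (PV × DC Dc × ℕ) × ℕ => q.1) := PT.fst'
      have hp' : PT ∅ (fun q : (PV × DC Dc × ℕ) × ℕ => q.1.1) := hp.comp hf
      exact cpt_lvc (pt_a hp') (pbd_pow (A := ∅) hp') hG.q (fun _ => sR_pos _ _) (he.comp hf)
        ((hG.comp hf).lp (hu.comp hf) PT.snd'))
  exact h

/-- **The words of the constants.** -/
theorem exists_cw : ∃ (cw : PV × DC Dc × ℕ → List Bool × List Bool) (Z : PV × DC Dc × ℕ → ℤ × ℤ),
    PT ∅ cw ∧
    (∀ x, cw x = (wordZ (bW x.1.d x.1.s x.1.y) (Z x).1, wordZ (bW x.1.d x.1.s x.1.y) (Z x).2)) ∧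
    (∀ x, |((Z x).1 : ℝ) - 2 ^ sc x.1.d x.1.s x.1.y * (zV x).re| ≤ 1) ∧
    ∀ x, |((Z x).2 : ℝ) - 2 ^ sc x.1.d x.1.s x.1.y * (zV x).im| ≤ 1 := by
  have hp : PT ∅ (fun x : PV × DC Dc × ℕ => x.1) := PT.id.fst
  obtain ⟨C, -, h1, h2, h3, h4, -⟩ := CPT.export cpt_zV
    (H121.pt_sc (pt_d hp) (pt_s hp) (pt_y hp))
    (H121.pbd_sc (pbd_d (A := ∅) hp) (pbd_s (A := ∅) hp) (pbd_y (A := ∅) hp))
    (H121.pt_bW (pt_d hp) (pt_s hp) (pt_y hp))
    (H121.pbd_bW (pbd_d (A := ∅) hp) (pbd_s (A := ∅) hp) (pbd_y (A := ∅) hp))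
  exact ⟨fun x => (wordZ (bW x.1.d x.1.s x.1.y) (C x).1, wordZ (bW x.1.d x.1.s x.1.y) (C x).2), C,
    h1.pair h2, fun _ => rfl, h3, h4⟩

/-! ### The codes of the schedule -/

section codes

variable {δ : Type}

/-- The local codes of a step belong to the program. -/
def InProg (prog : List (Ly δ)) : St δ → Prop
  | .dg (.loc _ e) => Ly.dg e ∈ prog
  | _ => True

theorem inProg_W (G : Geo) (prog : List (Ly δ)) (J : List ℕ) :
    ∀ st ∈ G.W prog J, InProg prog st := by
  intro st hst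
  simp only [Geo.W, List.mem_map] at hst
  obtain ⟨l, hl, rfl⟩ := hst
  cases l with
  | dn t => trivial
  | up t => trivial
  | dg c => exact hl

theorem inProg_stA (G : Geo) (prog : List (Ly δ)) (neg : Bool) (p : ℕ) :
    ∀ st ∈ G.stA prog neg p, InProg prog st := by
  intro st hst
  simp only [Geo.stA, List.mem_append, List.mem_cons] at hst
  rcases hst with h | rfl | h
  · exact inProg_W G prog _ st h
  · trivial
  · exact inProg_W G prog _ st h

theorem inProg_stB (G : Geo) (prog : List (Ly δ)) (neg : Bool) (p : ℕ) :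
    ∀ st ∈ G.stB prog neg p, InProg prog st := by
  intro st hst
  simp only [Geo.stB, List.mem_append, List.mem_cons] at hst
  rcases hst with h | rfl | h
  · exact inProg_W G prog _ st h
  · trivial
  · exact inProg_W G prog _ st h

theorem inProg_sel (G : Geo) (prog : List (Ly δ)) (i : ℕ) :
    (∀ st ∈ (G.selF i : List (St δ)), InProg prog st) ∧
      ∀ st ∈ (G.selI i : List (St δ)), InProg prog st := by
  constructor
  · intro st hst
    simp only [Geo.selF, List.mem_cons, List.not_mem_nil, or_false] at hst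
    rcases hst with rfl | rfl | rfl | rfl <;> trivial
  · intro st hst
    simp only [Geo.selI, List.mem_cons, List.not_mem_nil, or_false] at hst
    rcases hst with rfl | rfl | rfl | rfl <;> trivial

theorem inProg_fwd (G : Geo) (prog : List (Ly δ)) : ∀ st ∈ G.fwd prog, InProg prog st := by
  intro st hst
  simp only [Geo.fwd, List.mem_append, List.mem_flatMap] at hst
  rcases hst with ⟨i, -, h⟩ | ⟨i, -, h⟩ | ⟨i, -, h⟩ | h
  · exact (inProg_sel G prog i).1 st h
  · exact inProg_stA G prog false i st h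
  · exact inProg_stB G prog false i st h
  · exact inProg_W G prog _ st h

theorem inProg_bwd (G : Geo) (prog : List (Ly δ)) : ∀ st ∈ G.bwd prog, InProg prog st := by
  intro st hst
  simp only [Geo.bwd, List.mem_append, List.mem_flatMap, List.mem_cons] at hst
  rcases hst with rfl | h | ⟨i, -, h⟩ | ⟨i, -, h⟩ | ⟨i, -, h⟩
  · trivial
  · exact inProg_W G prog _ st h
  · exact inProg_stB G prog true i st h
  · exact inProg_stA G prog true i st h
  · exact (inProg_sel G prog i).2 st h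

theorem val_congr {G : Geo} {prog : List (Ly δ)} {lv lv' : ℕ → δ → ℕ → ℂ}
    (h : ∀ e, Ly.dg e ∈ prog → ∀ q p, lv q e p = lv' q e p) {c : DC δ}
    (hc : InProg prog (.dg c)) (u : ℕ) : G.val lv c u = G.val lv' c u := by
  cases c with
  | loc J e =>
    have he : Ly.dg e ∈ prog := hc
    simp only [Geo.val]
    congr 1
    exact List.map_congr_left fun i _ => h e he _ _
  | _ => rfl

end codes

theorem mem_lprog {a : ℕ} {e : Dc} (h : Ly.dg e ∈ lprog a) : H352.Ly.dg e ∈ H352.prog a := by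
  simp only [H352.lprog, List.mem_map] at h
  obtain ⟨l, hl, he⟩ := h
  cases l with
  | dn t => simp [H352.toL] at he
  | up t => simp [H352.toL] at he
  | dg c =>
    simp only [H352.toL, Ly.dg.injEq] at he
    rwa [he] at hl

/-- On the codes of the schedule the value is helper352's. -/
theorem zV_eq {p : PV} {c : DC Dc}
    (h : St.dg c ∈ fwP p ++ bkP p) (u : ℕ) :
    zV (p, c, u) = (H121.geo p.d p.s).val (fun q => Dc.val (aR p.d) q) c u := by
  have hc : InProg (lprog (aR p.d)) (.dg c) := by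
    rcases List.mem_append.1 h with h | h
    · exact inProg_fwd _ _ _ h
    · exact inProg_bwd _ _ _ h
  exact val_congr (fun e he q v => lvc_prog (mem_lprog he) v) hc u

/-- The words and their approximation property on the schedule. -/
theorem exists_words : ∃ (cw : PV × DC Dc × ℕ → List Bool × List Bool)
    (Z : PV × DC Dc × ℕ → ℤ × ℤ), PT ∅ cw ∧
    (∀ x, cw x = (wordZ (bW x.1.d x.1.s x.1.y) (Z x).1, wordZ (bW x.1.d x.1.s x.1.y) (Z x).2)) ∧
    (∀ x, (cw x).1.length = bW x.1.d x.1.s x.1.y ∧ (cw x).2.length = bW x.1.d x.1.s x.1.y) ∧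
    ∀ (p : PV) (c : DC Dc), St.dg c ∈ fwP p ++ bkP p → ∀ u,
      |((Z (p, c, u)).1 : ℝ) - 2 ^ sc p.d p.s p.y *
        ((H121.geo p.d p.s).val (fun q => Dc.val (aR p.d) q) c u).re| ≤ 1 ∧
      |((Z (p, c, u)).2 : ℝ) - 2 ^ sc p.d p.s p.y *
        ((H121.geo p.d p.s).val (fun q => Dc.val (aR p.d) q) c u).im| ≤ 1 := by
  obtain ⟨cw, Z, h1, h2, h3, h4⟩ := exists_cw
  refine ⟨cw, Z, h1, h2, fun x => ?_, fun p c hc u => ?_⟩
  · rw [h2 x]
    exact ⟨length_wordZ _ _, length_wordZ _ _⟩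
  · rw [← zV_eq hc u]
    exact ⟨h3 (p, c, u), h4 (p, c, u)⟩

end Vale.Agent.P338.R3.H313
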